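import Vale.Agent.P165.Defs

/-!
# Groups acting on trees: named conditions for the statements
-/

namespace Vale.Agent.P165.SG

/-- Every regular connected graph with a free cofinite action of the group, and every Cayley graph
of a group containing it with finite index, has a nonuniqueness phase. -/
def NonuniquePhase (Γ : Type) [Group Γ] : Prop :=
  (∀ (V : Type) (G : SimpleGraph V) (d : ℕ), G.Connected →
    (∀ v, (G.neighborSet v).encard = d) → ∀ (Φ : Γ →* (G ≃g G)),
      (∀ g v, Φ g v = v → g = 1) → ∀ R : Finset V, (∀ v, ∃ g, Φ g v ∈ R) → pc G < pu G) ∧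
  ∀ (Δ : Type) [Group Δ] (s : Set Δ), s.Finite → Subgroup.closure s = ⊤ →
    ∀ ψ : Γ →* Δ, Function.Injective ψ → ψ.range.FiniteIndex →
      pc (SimpleGraph.mulCayley s) < pu (SimpleGraph.mulCayley s)

/-- The positions `a n` and `b k` leave `o` with a common part bounded by `K / 2`. -/
def Diverge {W : Type} (H : SimpleGraph W) (o : W) (a b : ℕ → W) (K : ℕ) : Prop :=
  ∀ n k : ℕ, H.dist o (a n) + H.dist o (b k) ≤ H.dist (a n) (b k) + K

/-- Two elements escaping at speed at least one in four different directions. -/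
def FourEnds {Γ W : Type} [Group Γ] (H : SimpleGraph W) (act : Γ →* (H ≃g H)) (o : W) : Prop :=
  ∃ g h : Γ, ∃ K : ℕ,
    (∀ n : ℕ, n ≤ H.dist o (act (g ^ n) o) ∧ n ≤ H.dist o (act (h ^ n) o)) ∧
    ∀ a ∈ [(g, h), (g, h⁻¹), (g⁻¹, h), (g⁻¹, h⁻¹)],
      Diverge H o (fun n => act (a.1 ^ n) o) (fun k => act (a.2 ^ k) o) K

/-- Haagerup's inequality for functions supported where the displacement is at most `R`. -/
def RapidDecay {Γ : Type} [Group Γ] [DecidableEq Γ] (disp : Γ → ℕ → Prop) (c : ℝ) (e : ℕ) :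
    Prop :=
  ∀ (R : ℕ) (A B : Finset Γ), (∀ a ∈ A, disp a R) → ∀ (f h : Γ → ℝ) (out : Finset Γ),
    ∑ g ∈ out, (∑ a ∈ A.filter (fun a => a⁻¹ * g ∈ B), f a * h (a⁻¹ * g)) ^ 2 ≤
      c * ((R : ℝ) + 1) ^ e * (∑ a ∈ A, f a ^ 2) * ∑ b ∈ B, h b ^ 2

end Vale.Agent.P165.SG
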