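import Vale.Agent.P165.FF.Words
import Vale.Agent.P165.TL.Tree

/-!
# The Cayley tree of a free group

Reduced words are the geodesics, so the left regular action is an action on a tree with the word
length as displacement.
-/

namespace Vale.Agent.P165.SG

open FreeGroup SimpleGraph

variable {α : Type} [DecidableEq α]

/-- The Cayley tree of a free group. -/
def ftree (α : Type) [DecidableEq α] : SimpleGraph (FreeGroup α) where
  Adj x y := (x⁻¹ * y).toWord.length = 1
  symm := ⟨fun x y h => by
    rw [show y⁻¹ * x = (x⁻¹ * y)⁻¹ by group, toWord_inv, invRev_length]; exact h⟩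
  loopless := ⟨fun x h => by simp at h⟩

theorem ftree_adj {x y : FreeGroup α} :
    (ftree α).Adj x y ↔ ∃ l : α × Bool, y = x * mk [l] := by
  show (x⁻¹ * y).toWord.length = 1 ↔ _
  rw [List.length_eq_one_iff]
  constructor
  · rintro ⟨l, hl⟩
    exact ⟨l, by rw [← hl, mk_toWord, mul_inv_cancel_left]⟩
  · rintro ⟨l, rfl⟩
    exact ⟨l, by rw [inv_mul_cancel_left]; exact FF.toWord_mk' (List.isChain_singleton l)⟩

/-- Left translation of the tree. -/
def ftrans (g : FreeGroup α) : ftree α ≃g ftree α where
  toEquiv := Equiv.mulLeft g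
  map_rel_iff' {x y} := by
    show ((g * x)⁻¹ * (g * y)).toWord.length = 1 ↔ (x⁻¹ * y).toWord.length = 1
    rw [show (g * x)⁻¹ * (g * y) = x⁻¹ * y by group]

theorem ftrans_apply (g x : FreeGroup α) : ftrans g x = g * x := rfl

/-- The left regular action on the tree. -/
def fact (α : Type) [DecidableEq α] : FreeGroup α →* (ftree α ≃g ftree α) where
  toFun := ftrans
  map_one' := RelIso.ext fun x => one_mul x
  map_mul' g h := RelIso.ext fun x => mul_assoc g h x

/-- A path starts with the first letter of the difference of its ends. -/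
theorem word_of_path {x y z : FreeGroup α} (hadj : (ftree α).Adj x y) (p : (ftree α).Walk y z)
    (hp : (Walk.cons hadj p).IsPath) :
    ∃ l : α × Bool, y = x * mk [l] ∧ (x⁻¹ * z).toWord = l :: (y⁻¹ * z).toWord := by
  induction p generalizing x with
  | @nil u =>
    obtain ⟨l, hl⟩ := ftree_adj.1 hadj
    refine ⟨l, hl, ?_⟩
    rw [show u⁻¹ * u = 1 by group, toWord_one, hl, inv_mul_cancel_left]
    exact FF.toWord_mk' (List.isChain_singleton l)
  | @cons u v z h q ih =>
    obtain ⟨hq, hx⟩ := (Walk.cons_isPath_iff _ _).1 hp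
    obtain ⟨l', hl', hw⟩ := ih h hq
    obtain ⟨l, hl⟩ := ftree_adj.1 hadj
    refine ⟨l, hl, ?_⟩
    have hr : FF.Red (l :: (u⁻¹ * z).toWord) := by
      have hr' := FF.red_toWord (u⁻¹ * z)
      rw [hw] at hr' ⊢
      refine List.isChain_cons_cons.2 ⟨fun heq => hx ?_, hr'⟩
      rw [Walk.support_cons]
      refine List.mem_cons.2 (Or.inr ?_)
      have : v = x := by
        rw [hl', hl, heq, mul_assoc, mul_mk, List.singleton_append]
        have : (mk [l, FF.li l] : FreeGroup α) = 1 := by
          rw [one_eq_mk]
          exact Quot.sound (Red.Step.not (L₁ := []) (L₂ := []))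
        rw [this, mul_one]
      exact this ▸ q.start_mem_support
    rw [show x⁻¹ * z = mk (l :: (u⁻¹ * z).toWord) by
      rw [← List.singleton_append, ← mul_mk, mk_toWord, hl]; group]
    exact FF.toWord_mk' hr

theorem length_of_path {x y : FreeGroup α} (p : (ftree α).Walk x y) (hp : p.IsPath) :
    p.length = (x⁻¹ * y).toWord.length := by
  induction p with
  | nil => simp
  | @cons u v z h q ih =>
    obtain ⟨l, -, hw⟩ := word_of_path h q hp
    rw [hw, Walk.length_cons, ih hp.of_cons, List.length_cons]

theorem path_unique {x y : FreeGroup α} (p q : (ftree α).Walk x y) (hp : p.IsPath)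
    (hq : q.IsPath) : p = q := by
  induction p with
  | @nil u =>
    cases q with
    | nil => rfl
    | cons h r =>
      have := length_of_path _ hq
      simp at this
  | @cons u v z h r ih =>
    cases q with
    | nil =>
      have := length_of_path _ hp
      simp at this
    | @cons _ v' _ h' r' =>
      obtain ⟨l, hl, hw⟩ := word_of_path h r hp
      obtain ⟨l', hl', hw'⟩ := word_of_path h' r' hq
      obtain rfl : v = v' := by rw [hl, hl', (List.cons.inj (hw.symm.trans hw')).1]
      rw [ih r' hp.of_cons hq.of_cons]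

theorem ftree_reachable : ∀ (w : List (α × Bool)) (x : FreeGroup α),
    (ftree α).Reachable x (x * mk w)
  | [], x => by rw [← one_eq_mk, mul_one]
  | l :: w, x => by
      have h : (ftree α).Adj x (x * mk [l]) := ftree_adj.2 ⟨l, rfl⟩
      have := h.reachable.trans (ftree_reachable w (x * mk [l]))
      rwa [mul_assoc, mul_mk, List.singleton_append] at this

theorem ftree_connected : (ftree α).Connected := by
  refine ⟨fun x y => ?_⟩
  have := ftree_reachable (x⁻¹ * y).toWord x
  rwa [mk_toWord, mul_inv_cancel_left] at this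

theorem isTree_ftree : (ftree α).IsTree := by
  refine isTree_iff_existsUnique_path.2 ⟨⟨1⟩, fun x y => ?_⟩
  obtain ⟨p, hp, -⟩ := ftree_connected.exists_path_of_dist x y
  exact ⟨p, hp, fun q hq => path_unique q p hq hp⟩

theorem ftree_dist (x y : FreeGroup α) :
    (ftree α).dist x y = (x⁻¹ * y).toWord.length := by
  obtain ⟨p, hp, hl⟩ := ftree_connected.exists_path_of_dist x y
  rw [← hl, length_of_path p hp]

theorem ftree_dist_one (g : FreeGroup α) : (ftree α).dist 1 g = g.norm := by
  rw [ftree_dist, inv_one, one_mul]; rfl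

/-- The geodesic from the root reads the prefixes of the reduced word. -/
theorem ftree_pt (g : FreeGroup α) {i : ℕ} (hi : i ≤ g.norm) :
    TL.pt (ftree α) 1 g i = mk (g.toWord.take i) := by
  have hr := FF.red_toWord g
  have e1 : (mk (g.toWord.take i)).toWord = g.toWord.take i := FF.toWord_mk' (FF.red_take hr i)
  have e2 : ((mk (g.toWord.take i))⁻¹ * g).toWord = g.toWord.drop i := by
    rw [show (mk (g.toWord.take i))⁻¹ * g = mk (g.toWord.drop i) by
      rw [inv_mul_eq_iff_eq_mul, mul_mk, List.take_append_drop, mk_toWord]]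
    exact FF.toWord_mk' (FF.red_drop hr i)
  have hd : (ftree α).dist 1 (mk (g.toWord.take i)) = i := by
    rw [ftree_dist, inv_one, one_mul, e1, List.length_take]
    exact min_eq_left hi
  have h := TL.eq_pt_of_between isTree_ftree (u := 1) (v := g) (x := mk (g.toWord.take i)) (by
    rw [hd, ftree_dist, ftree_dist_one, e2, List.length_drop]
    simp only [FreeGroup.norm] at hi ⊢
    omega)
  rwa [hd] at h

end Vale.Agent.P165.SG
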