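import Vale.Agent.P165.SG.Setup
import Vale.Agent.P165.SG.FreeTree
import Vale.Agent.P165.FF.Haagerup

/-!
# Subgroups of products of free groups

A group embedded in a product of free groups, with nonabelian projections, acts properly on the
Cayley trees, has two loxodromics with four distinct ends in every tree, and satisfies Haagerup's
inequality.
-/

namespace Vale.Agent.P165.SG

open TL

section Commute

variable {Γ V : Type} [Group Γ] {H : SimpleGraph V} (hT : H.IsTree) (f : Γ →* (H ≃g H)) (u : V)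

include hT in
/-- A loxodromic element shifts the far part of its ray. -/
theorem shift_ray {g : Γ} (hg : Lox f g) {n i : ℕ} (hn : 1 ≤ n) (h1 : dsp f u g ≤ i)
    (h2 : i ≤ dsp f u (g ^ n)) :
    f g (pt H u (f (g ^ n) u) i) =
      pt H u (f (g ^ (n + 1)) u) (i + (dsp f u (g * g) - dsp f u g)) := by
  obtain ⟨m, rfl⟩ := Nat.exists_eq_add_of_le' hn
  set P := f g u with hP
  set Q := f (g ^ (m + 1 + 1)) u with hQ
  set e := dsp f u (g * g) - dsp f u g with he
  have a := dsp_pow hT f u g (hg u) m
  have b := dsp_pow hT f u g (hg u) (m + 1)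
  rw [← he] at a b
  rw [Nat.add_mul, Nat.one_mul] at b
  have hQP : H.dist Q P = dsp f u (g ^ (m + 1)) := by
    rw [hP, hQ, SimpleGraph.dist_comm, dist_dsp hT, pow_succ' g (m + 1), inv_mul_cancel_left]
  have hQu : H.dist Q u = dsp f u (g ^ (m + 1 + 1)) := SimpleGraph.dist_comm
  obtain ⟨-, -, h3, -, h5⟩ := gp_spec hT Q P u
  rw [hQP, hQu, show H.dist P u = dsp f u g from SimpleGraph.dist_comm] at h5
  rw [← pt_map hT hT (f g), ← f_mul, ← pow_succ', ← hQ, ← hP, pt_rev hT (u := Q) (v := P),
    hQP, h3 _ (by omega), pt_rev hT (u := u) (v := Q), SimpleGraph.dist_comm (u := u) (v := Q), hQu]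
  congr 1
  omega

include hT in
/-- In a free action, elements with a common forward end commute. -/
theorem commute_of_same (hfree : ∀ (g : Γ) (x : V), f g x = x → g = 1) {g h : Γ} (hg : Lox f g)
    (hh : Lox f h) (s : Same f u g h) : g * h = h * g := by
  set eg := dsp f u (g * g) - dsp f u g with heg
  set eh := dsp f u (h * h) - dsp f u h with heh
  set i := dsp f u g + dsp f u h with hi
  set R := i + eg + eh with hR
  obtain ⟨N₁, s1⟩ := s R
  obtain ⟨N₂, s2⟩ := same_refl hT f u hg R
  obtain ⟨N₃, s3⟩ := same_refl hT f u hh R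
  set n := N₁ + N₂ + N₃ + R + 1 with hn
  have hgn := le_dsp_pow hT f u hg n
  have hhn := le_dsp_pow hT f u hh n
  set ξ := fun j => pt H u (f (g ^ n) u) j with hξ
  have eh1 : ∀ j ≤ R, pt H u (f (h ^ n) u) j = ξ j := fun j hj =>
    ((gp_spec hT u (f (g ^ n) u) (f (h ^ n) u)).2.2.1 j
      (hj.trans (s1 n (by omega) n (by omega)))).symm
  have eg1 : ∀ j ≤ R, pt H u (f (g ^ (n + 1)) u) j = ξ j := fun j hj =>
    ((gp_spec hT u (f (g ^ n) u) (f (g ^ (n + 1)) u)).2.2.1 j
      (hj.trans (s2 n (by omega) (n + 1) (by omega)))).symm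
  have eh2 : ∀ j ≤ R, pt H u (f (h ^ (n + 1)) u) j = ξ j := fun j hj =>
    (((gp_spec hT u (f (h ^ n) u) (f (h ^ (n + 1)) u)).2.2.1 j
      (hj.trans (s3 n (by omega) (n + 1) (by omega)))).symm).trans (eh1 j hj)
  have G : ∀ j, dsp f u g ≤ j → j + eg ≤ R → f g (ξ j) = ξ (j + eg) := fun j h1 h2 => by
    rw [hξ, shift_ray hT f u hg (by omega) h1 (by omega), ← heg]
    exact eg1 _ h2
  have K : ∀ j, dsp f u h ≤ j → j + eh ≤ R → f h (ξ j) = ξ (j + eh) := fun j h1 h2 => by
    rw [← eh1 j (by omega), shift_ray hT f u hh (by omega) h1 (by omega), ← heh]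
    exact eh2 _ h2
  refine (inv_mul_eq_one.1 (hfree ((h * g)⁻¹ * (g * h)) (ξ i) ?_)).symm
  have e1 : f (g * h) (ξ i) = f (h * g) (ξ i) := by
    rw [f_mul, f_mul, K i (by omega) (by omega), G (i + eh) (by omega) (by omega),
      G i (by omega) (by omega), K (i + eg) (by omega) (by omega)]
    congr 1
    omega
  rw [f_mul, e1, ← f_mul, inv_mul_cancel, f_one]

end Commute

section Free

variable {α : Type} [DecidableEq α]

theorem fact_free (g x : FreeGroup α) (h : fact α g x = x) : g = 1 := by
  have h' : g * x = x := h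
  simpa using h'

/-- Every nontrivial element is loxodromic on the Cayley tree. -/
theorem lox_fact {g : FreeGroup α} (hg : g ≠ 1) : Lox (fact α) g := by
  by_contra h
  obtain ⟨p, hp⟩ := exists_fixed isTree_ftree (fact α) 1 h
  refine hg ?_
  have h2 := fact_free _ _ hp
  rw [← pow_two] at h2
  by_contra hne
  exact not_isOfFinOrder_of_isMulTorsionFree hne (isOfFinOrder_iff_pow_eq_one.2 ⟨2, two_pos, h2⟩)

variable {Γ : Type} [Group Γ]

/-- A homomorphism to a free group with nonabelian image is of general type on the tree. -/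
theorem genType_fact (π : Γ →* FreeGroup α) {g h : Γ} (hgh : π g * π h ≠ π h * π g) :
    GenType ((fact α).comp π) (1 : FreeGroup α) := by
  have hg : π g ≠ 1 := fun e => hgh (by rw [e, one_mul, mul_one])
  have hh : π h ≠ 1 := fun e => hgh (by rw [e, one_mul, mul_one])
  have key : ∀ a b : Γ, π a ≠ 1 → π b ≠ 1 → π a * π b ≠ π b * π a →
      ¬Same ((fact α).comp π) (1 : FreeGroup α) a b := fun a b ha hb hne s =>
    hne (commute_of_same isTree_ftree (fact α) 1 fact_free (lox_fact ha) (lox_fact hb) fun R => by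
      obtain ⟨N, hN⟩ := s R
      exact ⟨N, fun n hn m hm => by
        have := hN n hn m hm
        simp only [sh, MonoidHom.comp_apply, map_pow] at this ⊢
        exact this⟩)
  have lox : ∀ a : Γ, π a ≠ 1 → Lox ((fact α).comp π) a := fun a ha v => by
    have := lox_fact ha v
    simp only [dsp, MonoidHom.comp_apply, map_mul] at this ⊢
    exact this
  have hg' : π g⁻¹ ≠ 1 := by rw [map_inv]; exact inv_ne_one.2 hg
  have hh' : π h⁻¹ ≠ 1 := by rw [map_inv]; exact inv_ne_one.2 hh
  have c : Commute (π g) (π h) → False := fun e => hgh e.eq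
  refine ⟨g, h, lox g hg, lox h hh, key g h hg hh hgh, key g h⁻¹ hg hh' fun e => c ?_,
    key g⁻¹ h hg' hh fun e => c ?_, key g⁻¹ h⁻¹ hg' hh' fun e => c ?_⟩
  · rw [map_inv] at e; exact Commute.inv_right_iff.1 e
  · rw [map_inv] at e; exact Commute.inv_left_iff.1 e
  · rw [map_inv, map_inv] at e; exact Commute.inv_inv_iff.1 e

end Free

section Product

variable {κ : Type} [Fintype κ] [DecidableEq κ] {α : κ → Type} [∀ t, DecidableEq (α t)]
  [∀ t, Fintype (α t)] {Γ : Type} [Group Γ]

/-- The action on the Cayley trees of a group embedded in a product of free groups. -/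
noncomputable def freeSubAct (ψ : Γ →* FF.FG α) (hψ : Function.Injective ψ) : PAct κ Γ where
  V t := FreeGroup (α t)
  H t := ftree (α t)
  tree _ := isTree_ftree
  φ t := (fact (α t)).comp ((Pi.evalMonoidHom (fun s => FreeGroup (α s)) t).comp ψ)
  o _ := 1
  proper R := by
    refine (((FF.ball R : Finset (FF.FG α)).finite_toSet).preimage hψ.injOn).subset fun g hg => ?_
    refine Finset.mem_coe.2 (FF.mem_ball.2 fun t => ?_)
    have := hg t
    rw [← ftree_dist_one]
    have e : (fact (α t)).comp ((Pi.evalMonoidHom (fun s => FreeGroup (α s)) t).comp ψ) g 1 = ψ g t :=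
      mul_one (ψ g t)
    rwa [e] at this
  tfree g hg := by
    refine hψ ?_
    rw [map_one]
    funext t
    by_contra hne
    exact not_isOfFinOrder_of_isMulTorsionFree (a := ψ g t) hne
      (((Pi.evalMonoidHom (fun s => FreeGroup (α s)) t).comp ψ).isOfFinOrder hg)

theorem freeSubAct_general (ψ : Γ →* FF.FG α) (hψ : Function.Injective ψ)
    (hproj : ∀ t, ∃ g h : Γ, ψ g t * ψ h t ≠ ψ h t * ψ g t) :
    (freeSubAct ψ hψ).General := fun t => by
  obtain ⟨g, h, hgh⟩ := hproj t
  exact genType_fact ((Pi.evalMonoidHom (fun s => FreeGroup (α s)) t).comp ψ) hgh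

theorem freeSubAct_len (ψ : Γ →* FF.FG α) (hψ : Function.Injective ψ) (t : κ) (g : Γ) :
    (freeSubAct ψ hψ).len t g = (ψ g t).norm := by
  show (ftree (α t)).dist 1 (ψ g t * 1) = _
  rw [mul_one, ftree_dist_one]

theorem freeSubAct_haag [DecidableEq Γ] (ψ : Γ →* FF.FG α) (hψ : Function.Injective ψ) :
    (freeSubAct ψ hψ).Haag 1 (4 * Fintype.card κ) := by
  classical
  intro R A B hA f h out
  set f' : FF.FG α → ℝ := fun x => f (Function.invFun ψ x)
  set h' : FF.FG α → ℝ := fun x => h (Function.invFun ψ x)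
  have li := Function.leftInverse_invFun hψ
  have hA' : A.image ψ ⊆ FF.ball R := fun x hx => by
    obtain ⟨a, ha, rfl⟩ := Finset.mem_image.1 hx
    refine FF.mem_ball.2 fun t => ?_
    rw [← freeSubAct_len ψ hψ]
    exact (freeSubAct ψ hψ).mem_ball.1 (hA ha) t
  have := FF.haagerup R (A.image ψ) (B.image ψ) hA' f' h' (out.image ψ)
  rw [Finset.sum_image hψ.injOn, Finset.sum_image hψ.injOn, Finset.sum_image hψ.injOn] at this
  rw [one_mul]
  refine le_trans (le_of_eq (Finset.sum_congr rfl fun g _ => ?_))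
    (this.trans_eq (by simp only [f', h', li _]))
  congr 1
  rw [Finset.filter_image, Finset.sum_image hψ.injOn]
  refine Finset.sum_congr (Finset.filter_congr fun a _ => ?_) fun a _ => ?_
  · rw [← map_inv, ← map_mul, hψ.mem_finset_image]
  · simp only [f', h', li _, ← map_inv, ← map_mul]

end Product

end Vale.Agent.P165.SG
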