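import Vale.Agent.P165.SG.Decode

/-!
# Trees: the mass of balls

Elements of a ball joined by markers give one element whose geodesics pass, `P` steps into each
marker, through vertices that tell the factors.
-/

namespace Vale.Agent.P165.SG

open Finset TL

namespace PAct

variable {κ Γ : Type} [Group Γ] (D : PAct κ Γ)

/-- A marker that may be inserted between two elements. -/
noncomputable def mark {C : Finset Γ} {D₀ P : ℕ} (hC : D.IsMarkers C D₀ P) (w u : Γ) : Γ :=
  (hC.2.2 (fun t => D.at' w⁻¹ t) (fun t => D.at' w⁻¹ t) (fun t => D.at' u t)).choose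

theorem mark_mem {C : Finset Γ} {D₀ P : ℕ} (hC : D.IsMarkers C D₀ P) (w u : Γ) :
    D.mark hC w u ∈ C :=
  (hC.2.2 (fun t => D.at' w⁻¹ t) (fun t => D.at' w⁻¹ t) (fun t => D.at' u t)).choose_spec.1

/-- The elements of a list, separated by markers. -/
noncomputable def join {C : Finset Γ} {D₀ P : ℕ} (hC : D.IsMarkers C D₀ P) : List Γ → Γ
  | [] => 1
  | w :: ws => w * (D.mark hC w (join hC ws) * join hC ws)

theorem join_spec {C : Finset Γ} {D₀ P : ℕ} (hC : D.IsMarkers C D₀ P) (w : Γ) (ws : List Γ)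
    (t : κ) :
    ∃ p ≤ D.len t (D.join hC (w :: ws)),
      D.geo (D.join hC (w :: ws)) t p = D.act t w (D.geo (D.mark hC w (D.join hC ws)) t P) := by
  obtain ⟨-, h⟩ := (hC.2.2 (fun t => D.at' w⁻¹ t) (fun t => D.at' w⁻¹ t)
    (fun t => D.at' (D.join hC ws) t)).choose_spec
  obtain ⟨-, -, h4, h1, -, h2⟩ := h t
  set u := D.join hC ws
  set c := D.mark hC w u
  have hP : 4 * D₀ ≤ P := by have := hC.2.1; omega
  have h1' : D.meet t 1 c w⁻¹ ≤ D₀ := by rw [meet, at_one]; exact h1
  have h2' : D.meet t 1 c⁻¹ u ≤ D₀ := by rw [meet, at_one]; exact h2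
  change 2 * P + 1 ≤ D.len t c at h4
  obtain ⟨l1, l2, -, q, -⟩ := D.step_geo t hP h1' h2' h4
  have := (D.meet_le t 1 c⁻¹ u).2
  have := (D.meet_le t 1 c w⁻¹).2
  simp only [inv_one, one_mul, len_inv] at *
  refine ⟨_, ?_, q P (by omega) (by omega)⟩
  show _ ≤ D.len t (w * (c * u))
  omega

theorem anchored_of_ball {R P : ℕ} {q : ∀ t, D.V t} {g h : Γ}
    (hq : ∀ t, (D.H t).dist (D.o t) (q t) ≤ P) (hg : g ∈ D.ball R)
    (hp : ∀ t, ∃ p ≤ D.len t h, D.geo h t p = D.act t g (q t)) :
    g ∈ D.anchored R (R + P) q h := by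
  classical
  refine mem_filter.2 ⟨hg, fun t => ?_⟩
  obtain ⟨p, hp1, hp2⟩ := hp t
  have e : D.anchor g q t = p := by rw [anchor, ← hp2, D.dist_geo t hp1]
  have h3 := (D.tree t).connected.dist_triangle (u := D.o t) (v := D.at' g t)
    (w := D.act t g (q t))
  rw [at', dist_act, ← hp2, D.dist_geo t hp1] at h3
  have h4 := D.mem_ball.1 hg t
  have := hq t
  simp only [len, at'] at h4
  rw [e]
  exact ⟨by omega, hp2⟩

variable [Fintype κ] [DecidableEq Γ]

/-- The lists of `i` elements of a ball. -/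
noncomputable def words (R : ℕ) : ℕ → Finset (List Γ)
  | 0 => {[]}
  | i + 1 => (D.ball R ×ˢ words R i).image fun q => q.1 :: q.2

theorem card_fiber {C : Finset Γ} {D₀ P : ℕ} (hC : D.IsMarkers C D₀ P) (R : ℕ) :
    ∀ (i : ℕ) (g : Γ), ((D.words R i).filter fun l => D.join hC l = g).card ≤
      (C.card * (R + P + 1) ^ Fintype.card κ) ^ i
  | 0, g => by
      refine (card_filter_le _ _).trans ?_
      simp [words]
  | i + 1, g => by
      classical
      have hsub : (D.words R (i + 1)).filter (fun l => D.join hC l = g) ⊆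
          C.biUnion fun c => (D.anchored R (R + P) (fun t => D.geo c t P) g).biUnion fun w =>
            ((D.words R i).filter fun l => D.join hC l = c⁻¹ * w⁻¹ * g).image (w :: ·) := by
        intro l hl
        obtain ⟨hl, hg⟩ := mem_filter.1 hl
        rw [words] at hl
        obtain ⟨⟨w, ws⟩, hq, rfl⟩ := mem_image.1 hl
        obtain ⟨hw, hws⟩ := mem_product.1 hq
        refine mem_biUnion.2 ⟨D.mark hC w (D.join hC ws), D.mark_mem hC _ _, mem_biUnion.2 ⟨w, ?_,
          mem_image.2 ⟨ws, mem_filter.2 ⟨hws, ?_⟩, rfl⟩⟩⟩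
        · refine D.anchored_of_ball (fun t => ?_) hw fun t => ?_
          · exact D.dist_geo_le t _ _
          · rw [← hg]
            exact D.join_spec hC w ws t
        · rw [← hg]
          show D.join hC ws = _⁻¹ * w⁻¹ * D.join hC (w :: ws)
          rw [join]
          group
      refine (card_le_card hsub).trans (card_biUnion_le.trans ((sum_le_card_nsmul _ _ _ fun c _ =>
        card_biUnion_le.trans ((sum_le_card_nsmul _ _ _
          fun w _ => card_image_le.trans (card_fiber hC R i _)).trans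
            ((smul_eq_mul _ _).le.trans (Nat.mul_le_mul_right _ (D.card_anchored R _ _ g))))).trans ?_))
      rw [smul_eq_mul, pow_succ', mul_assoc]

variable {O ι : Type} [DecidableEq O] [Fintype ι] {G : SimpleGraph (Γ × O)}
  {nb : Γ × O → ι → Γ × O}

/-- The mass of a ball grows at most polynomially, uniformly below the critical parameter. -/
theorem ball_sum (hl : Labelling G nb) (hinv : FF.Inv G) {C : Finset Γ} {D₀ P : ℕ}
    (hC : D.IsMarkers C D₀ P) :
    ∃ K : ℕ, 1 ≤ K ∧ ∀ (p δ X : ℝ), 0 ≤ p → p ≤ 1 → 0 ≤ δ →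
      (∀ x y : Γ × O, x.1⁻¹ * y.1 ∈ insert 1 C → δ ≤ FF.T nb p x y) →
      (∀ (S F : Finset (Γ × O)) (x : Γ × O), ∑ y ∈ F, tauIn nb S p x y ≤ X) →
      ∀ (R : ℕ) (o o' : O), δ ^ 2 * ∑ g ∈ D.ball R, FF.T nb p (1, o) (g, o') ≤
        (K : ℝ) * ((R : ℝ) + 1) ^ Fintype.card κ := by
  classical
  have hC0 : 0 < C.card := by
    obtain ⟨c, hc, -⟩ := hC.2.2 D.o D.o D.o
    exact card_pos.2 ⟨c, hc⟩
  refine ⟨C.card * (P + 1) ^ Fintype.card κ, Nat.one_le_iff_ne_zero.2 (by positivity), ?_⟩
  intro p δ X h0 h1 hδ0 hδ hX R o o'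
  refine le_trans ?_ (show (C.card : ℝ) * (((R + P + 1 : ℕ)) : ℝ) ^ Fintype.card κ ≤ _ by
    rw [show ((C.card * (P + 1) ^ Fintype.card κ : ℕ) : ℝ) * ((R : ℝ) + 1) ^ Fintype.card κ =
      ((C.card * (((P + 1) * (R + 1)) ^ Fintype.card κ) : ℕ) : ℝ) by
        push_cast; rw [mul_pow]; ring]
    exact_mod_cast Nat.mul_le_mul_left _ (Nat.pow_le_pow_left (by nlinarith) _))
  set F : Γ → ℝ := fun g => FF.T nb p (1, o) (g, o)
  have hF0 : ∀ g, 0 ≤ F g := fun g => FF.T_nonneg h0 h1 _ _
  suffices hmain : δ * ∑ g ∈ D.ball R, F g ≤ (C.card : ℝ) * (((R + P + 1 : ℕ)) : ℝ) ^ Fintype.card κ by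
    refine le_trans ?_ hmain
    rw [pow_two, mul_assoc, mul_sum]
    refine mul_le_mul_of_nonneg_left (sum_le_sum fun g _ => ?_) hδ0
    rw [mul_comm]
    refine le_trans (mul_le_mul_of_nonneg_left (hδ (g, o') (g, o) ?_) (FF.T_nonneg h0 h1 _ _))
      (FF.T_trans hl h0 h1 _ _ _)
    simp
  have hchain : ∀ l : List Γ, (l.map fun g => δ * F g).prod ≤ F (D.join hC l) := by
    intro l
    induction l with
    | nil =>
      rw [List.map_nil, List.prod_nil, join]
      exact (FF.T_self h0 h1 _).ge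
    | cons w ws ih =>
      set c := D.mark hC w (D.join hC ws)
      rw [List.map_cons, List.prod_cons, join]
      refine (mul_le_mul_of_nonneg_left ih (mul_nonneg hδ0 (hF0 w))).trans ?_
      have e : F (D.join hC ws) = FF.T nb p (w * c, o) (w * (c * D.join hC ws), o) := by
        have := FF.T_tr hl hinv (w * c) h0 h1 ((1 : Γ), o) (D.join hC ws, o)
        simp only [FF.tr, mul_one, mul_assoc] at this
        exact this.symm
      rw [e, mul_comm δ]
      refine le_trans (mul_le_mul_of_nonneg_right (le_trans (mul_le_mul_of_nonneg_left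
        (hδ (w, o) (w * c, o) ?_) (hF0 w)) (FF.T_trans hl h0 h1 _ _ _)) (FF.T_nonneg h0 h1 _ _))
        (FF.T_trans hl h0 h1 _ _ _)
      simpa using Or.inr (D.mark_mem hC w (D.join hC ws))
  refine FF.le_of_pow_le (X := X) (mul_pos (by exact_mod_cast hC0) (by positivity)) fun i => ?_
  have hpow : ∀ i, (δ * ∑ g ∈ D.ball R, F g) ^ i =
      ∑ l ∈ D.words R i, (l.map fun g => δ * F g).prod := by
    intro i
    induction i with
    | zero => simp [words]
    | succ i ih =>
      rw [words, sum_image fun a _ b _ h => Prod.ext (List.cons.inj h).1 (List.cons.inj h).2,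
        sum_product, pow_succ', ih, mul_sum (s := D.ball R), sum_mul]
      refine sum_congr rfl fun w _ => ?_
      simp only [List.map_cons, List.prod_cons]
      rw [mul_sum (s := D.words R i)]
  rw [hpow]
  set U := D.words R i
  calc ∑ l ∈ U, (l.map fun g => δ * F g).prod
      ≤ ∑ l ∈ U, F (D.join hC l) := sum_le_sum fun l _ => hchain l
    _ = ∑ g ∈ U.image (D.join hC),
          ((U.filter fun l => D.join hC l = g).card : ℝ) * F g := by
        rw [← sum_fiberwise_of_maps_to (g := D.join hC) fun l hl => mem_image_of_mem _ hl]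
        refine sum_congr rfl fun g _ => ?_
        rw [sum_congr rfl fun l hl => congrArg F (mem_filter.1 hl).2, sum_const, nsmul_eq_mul]
    _ ≤ ∑ g ∈ U.image (D.join hC),
          ((C.card : ℝ) * (((R + P + 1 : ℕ)) : ℝ) ^ Fintype.card κ) ^ i * F g := by
        refine sum_le_sum fun g _ => mul_le_mul_of_nonneg_right ?_ (hF0 g)
        exact_mod_cast D.card_fiber hC R i g
    _ ≤ _ := by
        rw [← mul_sum]
        refine mul_le_mul_of_nonneg_left ?_ (by positivity)
        have hset := FF.sum_T_le hl h0 h1 ((1 : Γ), o)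
          ((U.image (D.join hC)).image fun g => (g, o)) (fun S => hX S _ _)
        rwa [sum_image fun a _ b _ h => congrArg Prod.fst h] at hset

end PAct

end Vale.Agent.P165.SG
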