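import Vale.Agent.P165.SG.Setup
import Vale.Agent.P165.TL.Candidates

/-!
# Trees: few candidates for the next mark

A mirror is a group element whose conjugate of the marker maps, in every coordinate, all but the
first `K` vertices of the path before a position backwards onto the path after the position displaced
by `d`.  A tuple of vertices is moved injectively, so three mirrors at nearby scales would make the
square of the marker fix a vertex, and there are only polylogarithmically many mirrors.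
-/

namespace Vale.Agent.P165.SG

open Finset

variable {κ Γ : Type} [Group Γ] (D : PAct κ Γ)

namespace PAct

/-- The marker `c` is a mirror at the positions `a` of the sequences `γ`. -/
def Mirror (γ : ∀ t, ℕ → D.V t) (c : Γ) (q : ∀ t, D.V t) (d : κ → ℕ) (K : ℕ) (a : κ → ℕ) : Prop :=
  ∃ g : Γ, (∀ t, D.act t g (q t) = γ t (a t)) ∧
    ∀ t i, i + K ≤ a t → D.act t (g * c * g⁻¹) (γ t (a t - i)) = γ t (a t + d t + i)

theorem act_symm (t : κ) {b : Γ} {x y : D.V t} (h : D.act t b x = y) : D.act t b⁻¹ y = x := by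
  rw [← h, act_inv_act]

/-- Two ways of composing three mirrors agree. -/
theorem mirrors_commute [Finite κ] (γ : ∀ t, ℕ → D.V t) (d a b c : κ → ℕ) (K : ℕ) (u v w : Γ)
    (hu : ∀ t i, i + K ≤ a t → D.act t u (γ t (a t - i)) = γ t (a t + d t + i))
    (hv : ∀ t i, i + K ≤ b t → D.act t v (γ t (b t - i)) = γ t (b t + d t + i))
    (hw : ∀ t i, i + K ≤ c t → D.act t w (γ t (c t - i)) = γ t (c t + d t + i))
    (hK : ∀ t, 99 * K ≤ a t ∧ 99 * K ≤ b t ∧ 99 * K ≤ c t)
    (hclose : ∀ t, 8 * a t ≤ 9 * b t ∧ 8 * b t ≤ 9 * a t ∧ 8 * a t ≤ 9 * c t ∧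
      8 * c t ≤ 9 * a t ∧ 8 * b t ≤ 9 * c t ∧ 8 * c t ≤ 9 * b t) :
    v * w⁻¹ * u = u * w⁻¹ * v := by
  set x : κ → ℕ := fun t => max (2 * a t - 2 * c t) (2 * b t - 2 * c t) + K with hx
  refine D.act_injective (fun t => γ t (x t)) fun t => ?_
  obtain ⟨h1, h2, h3, h4, h5, h6⟩ := hclose t
  obtain ⟨k1, k2, k3⟩ := hK t
  have hxt : x t = max (2 * a t - 2 * c t) (2 * b t - 2 * c t) + K := rfl
  have eu := hu t (a t - x t) (by omega)
  have ew := D.act_symm t (hw t (2 * a t - x t - c t) (by omega))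
  have ev := hv t (b t - (2 * c t + x t - 2 * a t)) (by omega)
  have ev' := hv t (b t - x t) (by omega)
  have ew' := D.act_symm t (hw t (2 * b t - x t - c t) (by omega))
  have eu' := hu t (a t - (2 * c t + x t - 2 * b t)) (by omega)
  rw [show a t - (a t - x t) = x t by omega,
    show a t + d t + (a t - x t) = 2 * a t + d t - x t by omega] at eu
  rw [show c t + d t + (2 * a t - x t - c t) = 2 * a t + d t - x t by omega,
    show c t - (2 * a t - x t - c t) = 2 * c t + x t - 2 * a t by omega] at ew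
  rw [show b t - (b t - (2 * c t + x t - 2 * a t)) = 2 * c t + x t - 2 * a t by omega] at ev
  rw [show b t - (b t - x t) = x t by omega,
    show b t + d t + (b t - x t) = 2 * b t + d t - x t by omega] at ev'
  rw [show c t + d t + (2 * b t - x t - c t) = 2 * b t + d t - x t by omega,
    show c t - (2 * b t - x t - c t) = 2 * c t + x t - 2 * b t by omega] at ew'
  rw [show a t - (a t - (2 * c t + x t - 2 * b t)) = 2 * c t + x t - 2 * b t by omega] at eu'
  rw [act_mul, act_mul, eu, ew, ev, act_mul, act_mul, ev', ew', eu']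
  congr 1
  omega

/-- Three nearby mirrors do not exist. -/
theorem no_three [Finite κ] (γ : ∀ t, ℕ → D.V t) (e : Γ) (q : ∀ t, D.V t) (K : ℕ)
    (d a b c : κ → ℕ) (ha : D.Mirror γ e q d K a) (hb : D.Mirror γ e q d K b)
    (hc : D.Mirror γ e q d K c) (hK : ∀ t, 99 * K ≤ a t ∧ 99 * K ≤ b t ∧ 99 * K ≤ c t)
    (hclose : ∀ t, 8 * a t ≤ 9 * b t ∧ 8 * b t ≤ 9 * a t ∧ 8 * a t ≤ 9 * c t ∧
      8 * c t ≤ 9 * a t ∧ 8 * b t ≤ 9 * c t ∧ 8 * c t ≤ 9 * b t)
    (t : κ) (hab : a t + d t ≤ b t) (hbc : b t + d t ≤ c t)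
    (hlox : Lox (D.φ t) e) : False := by
  obtain ⟨ga, -, hu⟩ := ha
  obtain ⟨gb, hgo, hv⟩ := hb
  obtain ⟨gc, -, hw⟩ := hc
  set u := ga * e * ga⁻¹
  set v := gb * e * gb⁻¹ with hvdef
  set w := gc * e * gc⁻¹
  obtain ⟨h1, h2, h3, h4, h5, h6⟩ := hclose t
  obtain ⟨k1, k2, k3⟩ := hK t
  set x := b t + d t + 2 * a t - 2 * c t with hx
  have eu := hu t (a t - x) (by omega)
  have ew := D.act_symm t (hw t (2 * a t - x - c t) (by omega))
  have ev' := hv t (b t - x) (by omega)
  have ew' := D.act_symm t (hw t (2 * b t - x - c t) (by omega))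
  have eu' := hu t (a t - (2 * a t + d t - b t)) (by omega)
  rw [show a t - (a t - x) = x by omega,
    show a t + d t + (a t - x) = 2 * a t + d t - x by omega] at eu
  rw [show c t + d t + (2 * a t - x - c t) = 2 * a t + d t - x by omega,
    show c t - (2 * a t - x - c t) = b t + d t by omega] at ew
  rw [show b t - (b t - x) = x by omega,
    show b t + d t + (b t - x) = 2 * b t + d t - x by omega] at ev'
  rw [show c t + d t + (2 * b t - x - c t) = 2 * b t + d t - x by omega,
    show c t - (2 * b t - x - c t) = 2 * a t + d t - b t by omega] at ew'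
  rw [show a t - (a t - (2 * a t + d t - b t)) = 2 * a t + d t - b t by omega,
    show a t + d t + (a t - (2 * a t + d t - b t)) = b t by omega] at eu'
  have key := congrArg (fun g => D.act t g (γ t x))
    (D.mirrors_commute γ d a b c K u v w hu hv hw hK hclose)
  simp only [act_mul] at key
  rw [eu, ew, ev', ew', eu'] at key
  have h0 := hv t 0 (by omega)
  rw [Nat.sub_zero, Nat.add_zero] at h0
  have hfix : D.act t (v * v) (γ t (b t)) = γ t (b t) := by rw [act_mul, h0, key]
  rw [← hgo t, ← act_mul, show v * v * gb = gb * (e * e) by rw [hvdef]; group,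
    act_mul] at hfix
  have hq : D.φ t (e * e) (q t) = q t := (D.φ t gb).injective hfix
  have := hlox (q t)
  simp only [dsp, hq, SimpleGraph.dist_self] at this
  omega

variable [Fintype κ] [DecidableEq κ]

/-- There are only polylogarithmically many mirrors. -/
theorem card_mirrors (γ : ∀ t, ℕ → D.V t) (e : Γ) (Q : ∀ t, D.V t) (d : κ → ℕ) (K : ℕ)
    (hd : ∀ t, 1 ≤ d t) (hlox : ∀ t, Lox (D.φ t) e) (B : ℕ) (A : Finset (κ → ℕ))
    (hA : ∀ a ∈ A, D.Mirror γ e Q d K a ∧ ∀ t, 99 * K ≤ a t ∧ a t ≤ B) :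
    A.card ≤ 2 ^ Fintype.card κ * ∏ t, ((Nat.log 2 B + 1) * (16 * d t)) := by
  set S : Finset (κ → ℕ × ℕ × ℕ) :=
    Fintype.piFinset fun t => range (Nat.log 2 B + 1) ×ˢ (range 16 ×ˢ range (d t)) with hS
  have hmaps : ∀ a ∈ A, (fun t => TL.scale (d t) (a t)) ∈ S := fun a ha => by
    refine Fintype.mem_piFinset.2 fun t => ?_
    simp only [TL.scale, mem_product, mem_range]
    refine ⟨Nat.lt_succ_of_le (Nat.log_mono_right ((hA a ha).2 t).2), ?_, Nat.mod_lt _ (hd t)⟩
    rw [Nat.div_lt_iff_lt_mul (by positivity)]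
    have := Nat.lt_pow_succ_log_self (b := 2) one_lt_two (a t)
    rw [pow_succ] at this
    omega
  have hKc : S.card = ∏ t, ((Nat.log 2 B + 1) * (16 * d t)) := by simp [hS]
  rw [← hKc, mul_comm]
  rw [card_eq_sum_card_fiberwise hmaps]
  refine (sum_le_card_nsmul _ _ (2 ^ Fintype.card κ) fun k _ => ?_).trans_eq (smul_eq_mul _ _)
  set F := A.filter fun a => (fun t => TL.scale (d t) (a t)) = k
  have hF : ∀ p ∈ F, ∀ q ∈ F, ∀ t, TL.scale (d t) (p t) = TL.scale (d t) (q t) := fun p hp q hq t =>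
    congrFun ((mem_filter.1 hp).2.trans (mem_filter.1 hq).2.symm) t
  have htwo : ∀ t, (F.image fun a => a t).card ≤ 2 := by
    intro t
    by_contra hlt
    obtain ⟨x, y, z, hx, hy, hz, hxy, hxz, hyz⟩ := two_lt_card_iff.1 (Nat.lt_of_not_le hlt)
    obtain ⟨p, hp, rfl⟩ := mem_image.1 hx
    obtain ⟨q, hq, rfl⟩ := mem_image.1 hy
    obtain ⟨r, hr, rfl⟩ := mem_image.1 hz
    have main : ∀ a ∈ F, ∀ b ∈ F, ∀ c ∈ F, a t < b t → b t < c t → False :=
      fun a ha b hb c hc h1 h2 => D.no_three γ e Q K d a b c (hA a (mem_filter.1 ha).1).1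
        (hA b (mem_filter.1 hb).1).1 (hA c (mem_filter.1 hc).1).1
        (fun s => ⟨((hA a (mem_filter.1 ha).1).2 s).1, ((hA b (mem_filter.1 hb).1).2 s).1,
          ((hA c (mem_filter.1 hc).1).2 s).1⟩)
        (fun s => ⟨TL.scale_close (hF a ha b hb s), TL.scale_close (hF b hb a ha s),
          TL.scale_close (hF a ha c hc s), TL.scale_close (hF c hc a ha s),
          TL.scale_close (hF b hb c hc s), TL.scale_close (hF c hc b hb s)⟩)
        t (TL.scale_gap (hF a ha b hb t) h1) (TL.scale_gap (hF b hb c hc t) h2) (hlox t)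
    rcases lt_or_gt_of_ne hxy with h1 | h1 <;> rcases lt_or_gt_of_ne hxz with h2 | h2 <;>
      rcases lt_or_gt_of_ne hyz with h3 | h3
    · exact main p hp q hq r hr h1 h3
    · exact main p hp r hr q hq h2 h3
    · omega
    · exact main r hr p hp q hq h2 h1
    · exact main q hq p hp r hr h1 h2
    · omega
    · exact main q hq r hr p hp h3 h2
    · exact main r hr q hq p hp h3 h1
  calc F.card ≤ (Fintype.piFinset fun t => F.image fun a => a t).card :=
        card_le_card fun a ha => Fintype.mem_piFinset.2 fun t => mem_image_of_mem _ ha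
    _ = ∏ t, (F.image fun a => a t).card := Fintype.card_piFinset _
    _ ≤ ∏ _t : κ, 2 := prod_le_prod' fun t _ => htwo t
    _ = _ := by rw [prod_const, card_univ]

end PAct

end Vale.Agent.P165.SG
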