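import Vale.Agent.P165.SG.Balls
import Vale.Agent.P165.FF.Perco

/-!
# Trees: the sum over chains with nonincreasing meets
-/

namespace Vale.Agent.P165.SG

open Finset FF TL

variable {κ Γ : Type} [Fintype κ] [Group Γ] [DecidableEq Γ] (D : PAct κ Γ) {O ι : Type}
  [DecidableEq O] [Fintype O] [Fintype ι] {G : SimpleGraph (Γ × O)} {nb : Γ × O → ι → Γ × O}

namespace PAct

omit [Fintype κ] [Fintype O] in
/-- A chain with markers is dominated by one connection. -/
theorem chainVal_le_T (hl : Labelling G nb) (hinv : Inv G) {C : Finset Γ} {p δ : ℝ} (h0 : 0 ≤ p)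
    (h1 : p ≤ 1) (hδ0 : 0 ≤ δ)
    (hδ : ∀ x y : Γ × O, x.1⁻¹ * y.1 ∈ insert 1 C → δ ≤ T nb p x y) (S : Finset (Γ × O))
    (a : Γ × O) : ∀ (zs : List (Γ × O)) (cs : List Γ) (x : Γ × O),
      cs.length = zs.length → (∀ c ∈ cs, c ∈ C) →
        δ ^ zs.length * chainVal nb S p x zs a ≤
          T nb p x (x.1 * val a.1 x.1 (zs.map Prod.fst) cs, a.2)
  | [], [], x, _, _ => by
      simpa [chainVal, val] using le_T h0 h1 S x a
  | [], c :: cs, x, h, _ => absurd h (by simp)
  | z :: zs, [], x, h, _ => absurd h (by simp)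
  | z :: zs, c :: cs, x, hlen, hmem => by
      have ih := chainVal_le_T hl hinv h0 h1 hδ0 hδ S a zs cs z (by simpa using hlen)
        fun q hq => hmem q (by simp [hq])
      simp only [List.length_cons, List.map_cons, chainVal]
      set P := val a.1 z.1 (zs.map Prod.fst) cs with hP
      have e : T nb p z (z.1 * P, a.2) = T nb p (z.1 * c, z.2)
          (x.1 * val a.1 x.1 (z.1 :: zs.map Prod.fst) (c :: cs), a.2) := by
        rw [← T_tr hl hinv (z.1 * c * (z.1)⁻¹) h0 h1 z (z.1 * P, a.2), val_cons, ← hP]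
        simp [tr, mul_assoc]
      have hstep : δ ≤ T nb p z (z.1 * c, z.2) :=
        hδ z (z.1 * c, z.2) (by simp [hmem c (by simp)])
      calc δ ^ (zs.length + 1) * (tauIn nb S p x z * chainVal nb S p z zs a)
          = (tauIn nb S p x z * δ) * (δ ^ zs.length * chainVal nb S p z zs a) := by
            rw [pow_succ]; ring
        _ ≤ (T nb p x z * T nb p z (z.1 * c, z.2)) * T nb p (z.1 * c, z.2)
              (x.1 * val a.1 x.1 (z.1 :: zs.map Prod.fst) (c :: cs), a.2) := by
            rw [← e]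
            refine mul_le_mul (mul_le_mul (le_T h0 h1 S x z) hstep hδ0 (T_nonneg h0 h1 _ _)) ih
              (mul_nonneg (pow_nonneg hδ0 _) (chainVal_nonneg S h0 h1 _ _ _))
              (mul_nonneg (T_nonneg h0 h1 _ _) (T_nonneg h0 h1 _ _))
        _ ≤ _ := (mul_le_mul_of_nonneg_right (T_trans hl h0 h1 x z _) (T_nonneg h0 h1 _ _)).trans
              (T_trans hl h0 h1 _ _ _)

omit [Fintype κ] [DecidableEq Γ] in
/-- The threaded product is short. -/
theorem len_val_le {C : Finset Γ} {K n : ℕ} (hK : ∀ c ∈ C, ∀ t, D.len t c ≤ K) {y : Γ}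
    (hy : ∀ t, D.len t y ≤ n) : ∀ (zs cs : List Γ) (w : Γ), (∀ t, D.len t w ≤ n) →
      (∀ z ∈ zs, ∀ t, D.len t z ≤ n) → (∀ c ∈ cs, c ∈ C) →
        ∀ t, D.len t (val y w zs cs) ≤ (zs.length + 1) * (2 * n + K)
  | [], cs, w, hw, _, _, t => by
      have h1 := D.len_mul_le t w⁻¹ y
      rw [D.len_inv] at h1
      have := hw t; have := hy t
      simp only [val, List.length_nil]
      omega
  | z :: zs, [], w, hw, _, _, t => by
      have h1 := D.len_mul_le t w⁻¹ y
      rw [D.len_inv] at h1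
      have := hw t; have := hy t
      simp only [val, List.length_cons]
      nlinarith
  | z :: zs, c :: cs, w, hw, hz, hc, t => by
      have ih := len_val_le hK hy zs cs z (hz z (by simp)) (fun q hq => hz q (by simp [hq]))
        (fun q hq => hc q (by simp [hq])) t
      have h1 := D.len_mul_le t (w⁻¹ * z) (c * val y z zs cs)
      have h2 := D.len_mul_le t w⁻¹ z
      have h3 := D.len_mul_le t c (val y z zs cs)
      rw [D.len_inv] at h2
      have := hw t; have := hz z (by simp) t; have := hK c (hc c (by simp)) t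
      rw [val_cons]
      simp only [List.length_cons]
      nlinarith

/-- The sum over chains with nonincreasing meets, up to short connections. -/
theorem chain_sum (hl : Labelling G nb) (hinv : Inv G) {C : Finset Γ} {D₀ P : ℕ}
    (hC : D.IsMarkers C D₀ P) :
    ∃ K : ℕ, 1 ≤ K ∧ ∀ (p δ X : ℝ), 0 ≤ p → p ≤ 1 → 0 ≤ δ → δ ≤ 1 →
      (∀ x y : Γ × O, x.1⁻¹ * y.1 ∈ insert 1 C → δ ≤ T nb p x y) →
      (∀ (S F : Finset (Γ × O)) (x : Γ × O), ∑ y ∈ F, tauIn nb S p x y ≤ X) →
      ∀ (n k : ℕ), 2 ≤ k → ∀ (o : O), ∀ a ∈ (D.cyl n : Finset (Γ × O)),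
        δ ^ (k + 2) * ∑ zs ∈ D.goodChains n k, chainVal nb (D.cyl n) p (1, o) zs a ≤
          (K : ℝ) ^ (k + 2) * (((K * (k + 1) * (n + 1) : ℕ)) : ℝ) ^ (3 * Fintype.card κ) *
            (((Nat.log 2 (K * (k + 1) * (n + 1)) + 1 : ℕ)) : ℝ) ^ (Fintype.card κ * k) := by
  classical
  set m := Fintype.card κ with hm
  set K₀ := ∑ c ∈ C, ∑ t, D.len t c with hK₀
  have hlen : ∀ c ∈ C, ∀ t, D.len t c ≤ K₀ := fun c hc t =>
    (single_le_sum (f := fun t => D.len t c) (fun _ _ => Nat.zero_le _) (mem_univ t)).trans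
      (single_le_sum (f := fun c => ∑ t, D.len t c) (fun _ _ => Nat.zero_le _) hc)
  obtain ⟨Kb, hKb, hball⟩ := D.ball_sum hl hinv hC
  set Cs := C.card * (2 ^ m * (16 * K₀ + 1) ^ m) with hCs
  set K := (Fintype.card O + 1) * (C.card * C.card * Kb + 1) * (Cs + 1) * (K₀ + 3) with hK
  refine ⟨K, Nat.one_le_iff_ne_zero.2 (by positivity), ?_⟩
  intro p δ X h0 h1 hδ0 hδ1 hδ hX n k hk o a ha
  obtain ⟨k, rfl⟩ : ∃ j, k = j + 1 := ⟨k - 1, by omega⟩
  set B := (k + 2) * (2 * n + K₀) with hB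
  set L := Nat.log 2 B + 1 with hLdef
  rw [mem_cyl] at ha
  set F : Finset (List (Γ × O)) := D.goodChains n (k + 1)
  -- every chain has a product
  have hend : ∀ zs ∈ F, ∃ g ∈ D.ball B, zs.map Prod.fst ∈ D.preimages C D₀ P B k a.1 g ∧
      δ ^ (k + 1) * chainVal nb (D.cyl n) p (1, o) zs a ≤ T nb p (1, o) (g, a.2) := by
    intro zs hzs
    obtain ⟨hzs, hflag⟩ := mem_filter.1 hzs
    obtain ⟨f, hf, rfl⟩ := mem_image.1 hzs
    have hzn : ∀ z ∈ (List.ofFn f).map Prod.fst, ∀ t, D.len t z ≤ n := by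
      intro z hz t
      obtain ⟨q, hq, rfl⟩ := List.mem_map.1 hz
      obtain ⟨i, rfl⟩ := List.mem_ofFn.1 hq
      exact D.mem_cyl.1 (Fintype.mem_piFinset.1 hf i) t
    have hlenl : (List.ofFn f).length = k + 1 := List.length_ofFn
    generalize List.ofFn f = zs at hzn hflag hlenl
    obtain ⟨z, l, rfl⟩ : ∃ z l, zs = z :: l := by
      cases zs with
      | nil => simp at hlenl
      | cons z l => exact ⟨z, l, rfl⟩
    obtain ⟨e, he⟩ : ∃ e, (z :: l).getLast? = some e := ⟨_, List.getLast?_eq_some_getLast (by simp)⟩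
    obtain ⟨cs, hcs, hth⟩ := D.exists_threaded hC e.1 a.1 ((z :: l).map Prod.fst) 1
    have hcmem := D.mem_of_threaded hth
    have hBv : ∀ t, D.len t (val a.1 1 ((z :: l).map Prod.fst) cs) ≤ B := fun t => by
      have := D.len_val_le hlen ha ((z :: l).map Prod.fst) cs 1
        (fun t => by rw [D.len_one]; omega) hzn hcmem t
      rw [List.length_map, hlenl] at this
      exact this
    refine ⟨_, D.mem_ball.2 hBv, ?_, ?_⟩
    · have hl' : l.length = k := by simpa using hlenl
      have hdesc : D.Descending e.1 ((z :: l).map Prod.fst) := by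
        refine D.descending_of _ _ fun t i x hx y hy w hw => ?_
        simp only [List.getElem?_map, Option.mem_def, Option.map_eq_some_iff] at hx hy hw
        obtain ⟨x', hx', rfl⟩ := hx
        obtain ⟨y', hy', rfl⟩ := hy
        obtain ⟨w', hw', rfl⟩ := hw
        exact hflag t i x' hx' y' hy' w' hw' e he
      have hmem := D.mem_preimages hC.2.1 hth (by rw [← List.map_cons, List.getLast?_map, he]; rfl)
        hdesc hBv
      rw [List.length_map, hl'] at hmem
      exact hmem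
    · have h := chainVal_le_T hl hinv h0 h1 hδ0 hδ (D.cyl n) a (z :: l) cs (1, o)
        (by rw [hcs, List.length_map]) hcmem
      rw [hlenl] at h
      simpa using h
  choose! g hg hpre hval using hend
  -- few chains share a product
  set M := (C.card * (B + 1) ^ m) ^ 2 * (Cs * L ^ m) ^ k with hM
  have hfib : ∀ h ∈ D.ball B, ((F.filter fun zs => g zs = h).card : ℝ) ≤
      ((Fintype.card O ^ (k + 1) * M : ℕ) : ℝ) := by
    intro h _
    refine Nat.cast_le.2 ?_
    set U : Finset (List O) :=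
      (Fintype.piFinset fun _ : Fin (k + 1) => (univ : Finset O)).image List.ofFn
    have hc : (F.filter fun zs => g zs = h).card ≤ (U ×ˢ D.preimages C D₀ P B k a.1 h).card := by
      refine card_le_card_of_injOn (fun zs => (zs.map Prod.snd, zs.map Prod.fst)) ?_ ?_
      · intro zs hzs
        obtain ⟨hzF, rfl⟩ := mem_filter.1 (mem_coe.1 hzs)
        refine mem_coe.2 (mem_product.2 ⟨?_, hpre zs hzF⟩)
        obtain ⟨f, -, rfl⟩ := mem_image.1 (mem_filter.1 hzF).1
        exact mem_image.2 ⟨fun i => (f i).2, Fintype.mem_piFinset.2 fun _ => mem_univ _,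
          List.map_ofFn.symm⟩
      · intro zs _ zs' _ heq
        simp only [Prod.mk.injEq] at heq
        obtain ⟨hO, hW⟩ := heq
        have hl' : zs.length = zs'.length := by simpa using congrArg List.length hO
        refine List.ext_getElem hl' fun i hi hi' => Prod.ext ?_ ?_
        · have := congrArg (fun l => l[i]?) hW
          simpa [hi, hi'] using this
        · have := congrArg (fun l => l[i]?) hO
          simpa [hi, hi'] using this
    rw [card_product] at hc
    exact hc.trans (Nat.mul_le_mul (card_image_le.trans (by simp))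
      (D.card_preimages C D₀ P hlen k a.1 h))
  set q : ℝ := ((Fintype.card O ^ (k + 1) * M : ℕ) : ℝ)
  calc δ ^ (k + 1 + 2) * ∑ zs ∈ F, chainVal nb (D.cyl n) p (1, o) zs a
      = δ ^ 2 * ∑ zs ∈ F, δ ^ (k + 1) * chainVal nb (D.cyl n) p (1, o) zs a := by
        rw [← mul_sum, ← mul_assoc, ← pow_add, add_comm 2 (k + 1)]
    _ ≤ δ ^ 2 * ∑ zs ∈ F, T nb p (1, o) (g zs, a.2) :=
        mul_le_mul_of_nonneg_left (sum_le_sum hval) (sq_nonneg δ)
    _ = δ ^ 2 * ∑ h ∈ D.ball B, ((F.filter fun zs => g zs = h).card : ℝ) *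
          T nb p (1, o) (h, a.2) := by
        rw [← sum_fiberwise_of_maps_to (g := g) hg]
        refine congrArg _ (sum_congr rfl fun h _ => ?_)
        rw [sum_congr rfl fun zs hzs => show T nb p (1, o) (g zs, a.2) = T nb p (1, o) (h, a.2) by
          rw [(mem_filter.1 hzs).2], sum_const, nsmul_eq_mul]
    _ ≤ δ ^ 2 * ∑ h ∈ D.ball B, q * T nb p (1, o) (h, a.2) :=
        mul_le_mul_of_nonneg_left (sum_le_sum fun h hh =>
          mul_le_mul_of_nonneg_right (hfib h hh) (T_nonneg h0 h1 _ _)) (sq_nonneg δ)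
    _ = q * (δ ^ 2 * ∑ h ∈ D.ball B, T nb p (1, o) (h, a.2)) := by rw [← mul_sum]; ring
    _ ≤ q * ((Kb : ℝ) * ((B : ℝ) + 1) ^ m) :=
        mul_le_mul_of_nonneg_left (hball p δ X h0 h1 hδ0 hδ hX B o a.2) (by positivity)
    _ ≤ _ := by
        have hq : q * ((Kb : ℝ) * ((B : ℝ) + 1) ^ m)
            = ((Fintype.card O ^ (k + 1) * M * (Kb * (B + 1) ^ m) : ℕ) : ℝ) := by
          simp only [q]; push_cast; ring
        rw [hq]
        exact_mod_cast numeric m k n (Fintype.card O) C.card Kb Cs K₀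
where
  numeric (m k n q c b s K₀ : ℕ) :
      q ^ (k + 1) *
          ((c * ((k + 2) * (2 * n + K₀) + 1) ^ m) ^ 2 *
            (s * (Nat.log 2 ((k + 2) * (2 * n + K₀)) + 1) ^ m) ^ k) *
          (b * ((k + 2) * (2 * n + K₀) + 1) ^ m) ≤
        ((q + 1) * (c * c * b + 1) * (s + 1) * (K₀ + 3)) ^ (k + 1 + 2) *
          ((q + 1) * (c * c * b + 1) * (s + 1) * (K₀ + 3) * (k + 1 + 1) * (n + 1)) ^ (3 * m) *
          (Nat.log 2 ((q + 1) * (c * c * b + 1) * (s + 1) * (K₀ + 3) * (k + 1 + 1) * (n + 1)) + 1) ^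
            (m * (k + 1)) := by
    set K := (q + 1) * (c * c * b + 1) * (s + 1) * (K₀ + 3) with hK
    set B := (k + 2) * (2 * n + K₀)
    have h3 : K₀ + 3 ≤ K := Nat.le_mul_of_pos_left _ (by positivity)
    have hBK : B + 1 ≤ K * (k + 1 + 1) * (n + 1) := by
      have h5 : 2 * n + K₀ + 1 ≤ K * (n + 1) := by nlinarith
      calc B + 1 ≤ (k + 2) * (2 * n + K₀ + 1) := by simp only [B]; nlinarith
        _ ≤ (k + 2) * (K * (n + 1)) := Nat.mul_le_mul le_rfl h5
        _ = _ := by ring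
    have hlog : Nat.log 2 B + 1 ≤ Nat.log 2 (K * (k + 1 + 1) * (n + 1)) + 1 :=
      Nat.add_le_add_right (Nat.log_mono_right (by omega)) 1
    set L := Nat.log 2 B + 1
    set L' := Nat.log 2 (K * (k + 1 + 1) * (n + 1)) + 1
    have hconst : q ^ (k + 1) * (c * c * b) * s ^ k ≤ K ^ (k + 1 + 2) := by
      calc q ^ (k + 1) * (c * c * b) * s ^ k
          ≤ (q + 1) ^ (k + 1 + 2) * (c * c * b + 1) ^ (k + 1 + 2) * (s + 1) ^ (k + 1 + 2) := by
            refine Nat.mul_le_mul (Nat.mul_le_mul ?_ ?_) ?_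
            · exact (Nat.pow_le_pow_left (Nat.le_succ q) _).trans
                (Nat.pow_le_pow_right (Nat.succ_pos _) (by omega))
            · exact (Nat.le_succ _).trans (Nat.le_self_pow (by omega) _)
            · exact (Nat.pow_le_pow_left (Nat.le_succ s) _).trans
                (Nat.pow_le_pow_right (Nat.succ_pos _) (by omega))
        _ = ((q + 1) * (c * c * b + 1) * (s + 1)) ^ (k + 1 + 2) := by rw [mul_pow, mul_pow]
        _ ≤ K ^ (k + 1 + 2) :=
            Nat.pow_le_pow_left (Nat.le_mul_of_pos_right _ (by omega)) _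
    calc q ^ (k + 1) * ((c * (B + 1) ^ m) ^ 2 * (s * L ^ m) ^ k) * (b * (B + 1) ^ m)
        = q ^ (k + 1) * (c * c * b) * s ^ k * (B + 1) ^ (3 * m) * L ^ (m * k) := by ring
      _ ≤ K ^ (k + 1 + 2) * (K * (k + 1 + 1) * (n + 1)) ^ (3 * m) * L' ^ (m * (k + 1)) :=
          Nat.mul_le_mul (Nat.mul_le_mul hconst (Nat.pow_le_pow_left hBK _))
            ((Nat.pow_le_pow_left hlog _).trans (Nat.pow_le_pow_right (Nat.succ_pos _)
              (Nat.mul_le_mul_left _ (Nat.le_succ k))))

end PAct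

end Vale.Agent.P165.SG
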