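import Vale.Agent.P165.SG.Candidates

/-!
# Trees: few chains share one threaded product

With markers inserted, the product of a chain passes, in every tree, through a vertex `P` steps into
each marker, up to cancellations of at most `D₀`.  Knowing the last point of the chain, that vertex
of the next marker is one of polylogarithmically many mirrors, so the chain is nearly determined by
the product.
-/

namespace Vale.Agent.P165.SG

open Finset TL

variable {κ Γ : Type} [Group Γ] (D : PAct κ Γ)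

namespace PAct

theorem dist_geo (t : κ) {g : Γ} {i : ℕ} (hi : i ≤ D.len t g) :
    (D.H t).dist (D.o t) (D.geo g t i) = i := (dist_pt (D.tree t) hi).1

theorem dist_geo_le (t : κ) (g : Γ) (i : ℕ) :
    (D.H t).dist (D.o t) (D.geo g t i) ≤ i := by
  rcases le_or_gt i (D.len t g) with hi | hi
  · exact (D.dist_geo t hi).le
  · obtain ⟨p, -, hl, h⟩ := exists_geo (D.tree t) (D.o t) (D.at' g t)
    have hi' : (D.H t).dist (D.o t) (D.at' g t) < i := hi
    rw [geo, h, SimpleGraph.Walk.getVert_of_length_le _ (by omega)]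
    omega

theorem meet_le (t : κ) (e a b : Γ) :
    D.meet t e a b ≤ D.len t (e⁻¹ * a) ∧ D.meet t e a b ≤ D.len t (e⁻¹ * b) := by
  rw [← D.dist_at, ← D.dist_at]
  exact ⟨(gp_spec (D.tree t) _ _ _).1, (gp_spec (D.tree t) _ _ _).2.1⟩

theorem meet_comm (t : κ) (e a b : Γ) : D.meet t e a b = D.meet t e b a :=
  gp_comm (D.tree t) _ _ _

theorem meet_min (t : κ) (e a b c : Γ) :
    min (D.meet t e a b) (D.meet t e b c) ≤ D.meet t e a c := gp_min (D.tree t) _ _ _ _

theorem geo_eq_of_meet (t : κ) (a b : Γ) {i : ℕ} (hi : i ≤ D.meet t 1 a b) :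
    D.geo a t i = D.geo b t i := by
  simp only [meet, at_one] at hi
  exact (gp_spec (D.tree t) (D.o t) (D.at' a t) (D.at' b t)).2.2.1 i hi

theorem geo_inv (t : κ) (g : Γ) {i : ℕ} (hi : i ≤ D.len t g) :
    D.geo g⁻¹ t i = D.act t g⁻¹ (D.geo g t (D.len t g - i)) := by
  have := hi
  rw [geo, geo, len, ← pt_rev (D.tree t), ← D.pt_act t g⁻¹]
  congr 1
  exact (D.act_inv_act t g _).symm

theorem len_le_anchor (t : κ) (g : Γ) (x : D.V t) :
    D.len t g ≤ (D.H t).dist (D.o t) (D.act t g x) + (D.H t).dist (D.o t) x := by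
  have h := (D.tree t).connected.dist_triangle (u := D.o t) (v := D.act t g x) (w := D.at' g t)
  rw [at', dist_act, SimpleGraph.dist_comm (u := x) (v := D.o t)] at h
  exact h

/-- The length and the geodesic of a product. -/
theorem glue (t : κ) (g h : Γ) :
    D.len t (g * h) + 2 * D.meet t 1 g⁻¹ h = D.len t g + D.len t h ∧
      (∀ i, i + D.meet t 1 g⁻¹ h ≤ D.len t g → D.geo (g * h) t i = D.geo g t i) ∧
      ∀ s, D.meet t 1 g⁻¹ h ≤ s → s ≤ D.len t h →
        D.geo (g * h) t (D.len t g + s - 2 * D.meet t 1 g⁻¹ h) = D.act t g (D.geo h t s) := by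
  have a1 := D.meet_spec t 1 g⁻¹ h
  have a2 := D.meet_spec t 1 (g * h) g
  have a3 := D.meet_spec t (g * h) 1 g
  simp only [inv_one, one_mul, inv_inv, len_inv, mul_inv_rev, mul_assoc, inv_mul_cancel, mul_one]
    at a1 a2 a3
  rw [show D.len t (h⁻¹ * g⁻¹) = D.len t (g * h) by rw [← mul_inv_rev, len_inv]] at a3
  refine ⟨a1, fun i hi => D.geo_eq_of_meet t _ _ (by omega), fun s hs hs' => ?_⟩
  have e := (gp_spec (D.tree t) (D.at' (g * h) t) (D.at' 1 t) (D.at' g t)).2.2.1
    (D.len t h - s) (show D.len t h - s ≤ D.meet t (g * h) 1 g by omega)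
  rw [at_one] at e
  rw [geo, show D.len t g + s - 2 * D.meet t 1 g⁻¹ h = D.len t (g * h) - (D.len t h - s) by omega,
    len, ← pt_rev (D.tree t)]
  refine e.trans ?_
  rw [geo, show s = D.len t h - (D.len t h - s) by omega, len, ← pt_rev (D.tree t), ← D.pt_act,
    ← at_mul, show D.act t g (D.o t) = D.at' g t from rfl]
  congr 1
  show _ = (D.H t).dist (D.o t) (D.at' h t) - _
  omega

/-- The lengths and the geodesic of two points joined by a marker. -/
theorem step_geo {x c u : Γ} {D₀ P : ℕ} (t : κ) (hP : 4 * D₀ ≤ P)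
    (h1 : D.meet t 1 c x⁻¹ ≤ D₀) (h2 : D.meet t 1 c⁻¹ u ≤ D₀) (h4 : 2 * P + 1 ≤ D.len t c) :
    D.len t (c * u) + 2 * D.meet t 1 c⁻¹ u = D.len t c + D.len t u ∧
      D.len t (x * (c * u)) + 2 * D.meet t 1 c x⁻¹ = D.len t x + D.len t (c * u) ∧
      (∀ i, i + D.meet t 1 c x⁻¹ ≤ D.len t x → D.geo (x * (c * u)) t i = D.geo x t i) ∧
      (∀ s, D.meet t 1 c x⁻¹ ≤ s → s + D.meet t 1 c⁻¹ u ≤ D.len t c →
        D.geo (x * (c * u)) t (D.len t x + s - 2 * D.meet t 1 c x⁻¹) =
          D.act t x (D.geo c t s)) ∧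
      ∀ s, D.meet t 1 c⁻¹ u ≤ s → s ≤ D.len t u →
        D.geo (x * (c * u)) t
            (D.len t x + D.len t c + s - 2 * D.meet t 1 c x⁻¹ - 2 * D.meet t 1 c⁻¹ u) =
          D.act t x (D.act t c (D.geo u t s)) := by
  obtain ⟨l1, p1, q1⟩ := D.glue t c u
  obtain ⟨l2, p2, q2⟩ := D.glue t x (c * u)
  have a1 := D.meet_spec t 1 c (c * u)
  simp only [inv_one, one_mul, inv_mul_cancel_left] at a1
  have hσ : D.meet t 1 x⁻¹ (c * u) = D.meet t 1 c x⁻¹ := by
    have := D.meet_min t 1 c (c * u) x⁻¹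
    have := D.meet_min t 1 (c * u) c x⁻¹
    have := D.meet_comm t 1 x⁻¹ (c * u)
    have := D.meet_comm t 1 c (c * u)
    omega
  rw [hσ] at l2 p2 q2
  have := (D.meet_le t 1 c⁻¹ u).2
  simp only [inv_one, one_mul] at this
  refine ⟨l1, l2, p2, fun s hs hs' => ?_, fun s hs hs' => ?_⟩
  · rw [q2 s hs (by omega), p1 s hs']
  · rw [← q1 s hs hs', ← q2 _ (by omega) (by omega)]
    congr 1
    omega

/-- The threaded product: `w⁻¹ z₁ c₁ z₁⁻¹ z₂ c₂ ⋯ z_k⁻¹ y`. -/
def val (y : Γ) : Γ → List Γ → List Γ → Γ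
  | w, z :: zs, c :: cs => w⁻¹ * z * (c * val y z zs cs)
  | w, _, _ => w⁻¹ * y

omit D in
theorem val_cons (y w z c : Γ) (zs cs : List Γ) :
    val y w (z :: zs) (c :: cs) = w⁻¹ * z * (c * val y z zs cs) := rfl

/-- The markers avoid the two neighbours and the point `e`, up to `D₀`. -/
def Threaded (C : Finset Γ) (D₀ P : ℕ) (e y : Γ) : Γ → List Γ → List Γ → Prop
  | w, z :: zs, c :: cs => c ∈ C ∧ (∀ t, Lox (D.φ t) c ∧ P ≤ D.meet t 1 c c⁻¹ ∧
      2 * P + 1 ≤ D.len t c ∧ D.meet t 1 c (w⁻¹ * z)⁻¹ ≤ D₀ ∧ D.meet t 1 c (z⁻¹ * e) ≤ D₀ ∧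
      D.meet t 1 c⁻¹ (val y z zs cs) ≤ D₀) ∧ Threaded C D₀ P e y z zs cs
  | _, [], [] => True
  | _, _, _ => False

theorem exists_threaded {C : Finset Γ} {D₀ P : ℕ} (hC : D.IsMarkers C D₀ P) (e y : Γ) :
    ∀ (zs : List Γ) (w : Γ),
      ∃ cs : List Γ, cs.length = zs.length ∧ D.Threaded C D₀ P e y w zs cs
  | [], w => ⟨[], rfl, trivial⟩
  | z :: zs, w => by
      obtain ⟨cs, hcs, hth⟩ := exists_threaded hC e y zs z
      obtain ⟨c, hc, h⟩ := hC.2.2 (fun t => D.at' (w⁻¹ * z)⁻¹ t) (fun t => D.at' (z⁻¹ * e) t)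
        (fun t => D.at' (val y z zs cs) t)
      refine ⟨c :: cs, by simp [hcs], hc, fun t => ?_, hth⟩
      simpa only [meet, at_one] using h t

theorem mem_of_threaded {C : Finset Γ} {D₀ P : ℕ} {e y : Γ} : ∀ {zs cs : List Γ} {w : Γ},
    D.Threaded C D₀ P e y w zs cs → ∀ c ∈ cs, c ∈ C
  | [], [], _, _ => by simp
  | z :: zs, c :: cs, w, h => by
      intro x hx
      rcases List.mem_cons.1 hx with rfl | hx
      · exact h.1
      · exact mem_of_threaded h.2.2 x hx
  | [], c :: cs, w, h => absurd h (by simp [Threaded])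
  | z :: zs, [], w, h => absurd h (by simp [Threaded])

/-- The vertex `P` steps into a marker lies on the geodesic of the threaded product. -/
theorem marker_on {C : Finset Γ} {D₀ P : ℕ} (hP : 4 * D₀ ≤ P) {e y w z c : Γ} {zs cs : List Γ}
    (h : D.Threaded C D₀ P e y w (z :: zs) (c :: cs)) (t : κ) :
    D.len t (val y z zs cs) ≤ D.len t (val y w (z :: zs) (c :: cs)) ∧
      ∃ p ≤ D.len t (val y w (z :: zs) (c :: cs)),
        D.geo (val y w (z :: zs) (c :: cs)) t p = D.act t (w⁻¹ * z) (D.geo c t P) := by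
  obtain ⟨-, -, h4, h1, -, h2⟩ := h.2.1 t
  obtain ⟨l1, l2, -, q, -⟩ := D.step_geo t hP h1 h2 h4
  have := (D.meet_le t 1 c (w⁻¹ * z)⁻¹).2
  have := (D.meet_le t 1 c⁻¹ (val y z zs cs)).2
  simp only [inv_one, one_mul, len_inv] at *
  refine ⟨by rw [val_cons]; omega, _, ?_, q P (by omega) (by omega)⟩
  rw [val_cons]
  omega

/-- Seen from `e`, the meets of consecutive points of the list do not increase. -/
def Descending (e : Γ) : List Γ → Prop
  | a :: b :: c :: zs => (∀ t, D.meet t e b c ≤ D.meet t e a b) ∧ Descending e (b :: c :: zs)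
  | _ => True

/-- The last marker tells the last point. -/
theorem exists_suffix {C : Finset Γ} {D₀ P : ℕ} (hP : 4 * D₀ ≤ P) {e y : Γ} :
    ∀ (zs cs : List Γ) (w : Γ), D.Threaded C D₀ P e y w zs cs → zs.getLast? = some e →
      ∃ c ∈ C, ∃ g, val y w zs cs = g * (e⁻¹ * y) ∧ ∀ t, ∃ p, D₀ ≤ p ∧
        p ≤ D.len t (val y w zs cs) ∧ D.geo (val y w zs cs) t p = D.act t g (D.geo c⁻¹ t P)
  | [], _, _, _, h => absurd h (by simp)
  | z :: zs, [], w, h, _ => absurd h (by simp [Threaded])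
  | [z], c :: cs, w, h, hl => by
      simp only [List.getLast?_singleton, Option.some.injEq] at hl
      subst hl
      have hcs : cs = [] := by
        cases cs with
        | nil => rfl
        | cons => exact absurd h.2.2 (by simp [Threaded])
      subst hcs
      refine ⟨c, h.1, w⁻¹ * z * c, by simp [val, mul_assoc], fun t => ?_⟩
      obtain ⟨-, -, h4, h1, -, h2⟩ := h.2.1 t
      obtain ⟨l1, l2, -, q, -⟩ := D.step_geo t hP h1 h2 h4
      have := (D.meet_le t 1 c (w⁻¹ * z)⁻¹).2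
      have := (D.meet_le t 1 c⁻¹ (val y z [] [])).2
      simp only [inv_one, one_mul, len_inv] at *
      refine ⟨_, ?_, ?_, (q (D.len t c - P) (by omega) (by omega)).trans ?_⟩
      · omega
      · rw [val_cons]; omega
      · rw [D.act_mul t (w⁻¹ * z) c, D.geo_inv t c (show P ≤ D.len t c by omega), ← D.act_mul t c,
          mul_inv_cancel, act_one]
  | z :: z' :: zs, c :: cs, w, h, hl => by
      obtain ⟨c', hc', g, hg, hp⟩ :=
        exists_suffix hP (z' :: zs) cs z h.2.2 (by simpa using hl)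
      refine ⟨c', hc', w⁻¹ * z * (c * g), by rw [val_cons, hg]; group, fun t => ?_⟩
      obtain ⟨-, -, h4, h1, -, h2⟩ := h.2.1 t
      obtain ⟨l1, l2, -, -, q⟩ := D.step_geo t hP h1 h2 h4
      obtain ⟨p, hp0, hp1, hp2⟩ := hp t
      have := (D.meet_le t 1 c (w⁻¹ * z)⁻¹).2
      simp only [inv_one, one_mul, len_inv] at *
      refine ⟨_, ?_, ?_, (q p (by omega) hp1).trans ?_⟩
      · omega
      · rw [val_cons]; omega
      · rw [hp2, ← D.act_mul, ← D.act_mul, mul_assoc]

/-- The distance of the image of a vertex from the base vertex. -/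
noncomputable def anchor (g : Γ) (q : ∀ t, D.V t) (t : κ) : ℕ :=
  (D.H t).dist (D.o t) (D.act t g (q t))

/-- The position where the product leaves the geodesic towards `e`. -/
noncomputable def drop (z e v : Γ) (t : κ) : ℕ := D.meet t 1 v (z⁻¹ * e)

open Classical in
/-- The elements moving a tuple onto the geodesics towards a position. -/
noncomputable def anchored (R B : ℕ) (q : ∀ t, D.V t) (h : Γ) : Finset Γ :=
  (D.ball R).filter fun g =>
    ∀ t, D.anchor g q t ≤ B ∧ D.geo h t (D.anchor g q t) = D.act t g (q t)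

theorem mem_anchored {R B P : ℕ} {q : ∀ t, D.V t} {g h : Γ}
    (hq : ∀ t, (D.H t).dist (D.o t) (q t) ≤ P) (hR : B + P ≤ R) (hB : ∀ t, D.len t h ≤ B)
    (hp : ∀ t, ∃ p ≤ D.len t h, D.geo h t p = D.act t g (q t)) : g ∈ D.anchored R B q h := by
  classical
  have key : ∀ t, D.anchor g q t ≤ B ∧ D.geo h t (D.anchor g q t) = D.act t g (q t) := fun t => by
    obtain ⟨p, hp1, hp2⟩ := hp t
    have e : D.anchor g q t = p := by rw [anchor, ← hp2, D.dist_geo t hp1]
    rw [e]
    exact ⟨hp1.trans (hB t), hp2⟩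
  refine mem_filter.2 ⟨D.mem_ball.2 fun t => ?_, key⟩
  have := D.len_le_anchor t g (q t)
  have := (key t).1
  have := hq t
  simp only [anchor] at *
  omega

theorem anchored_spec {R B : ℕ} {q : ∀ t, D.V t} {g h : Γ} (hg : g ∈ D.anchored R B q h)
    (t : κ) : D.anchor g q t ≤ B ∧ D.geo h t (D.anchor g q t) = D.act t g (q t) := by
  classical
  exact (mem_filter.1 hg).2 t

theorem card_anchored [Fintype κ] [DecidableEq κ] (R B : ℕ) (q : ∀ t, D.V t) (h : Γ) :
    (D.anchored R B q h).card ≤ (B + 1) ^ Fintype.card κ := by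
  classical
  refine (card_le_card_of_injOn (t := Fintype.piFinset fun _ : κ => Finset.range (B + 1))
    (fun g t => D.anchor g q t) ?_ ?_).trans (by simp)
  · intro g hg
    refine mem_coe.2 (Fintype.mem_piFinset.2 fun t => mem_range.2 ?_)
    have := (D.anchored_spec (mem_coe.1 hg) t).1
    beta_reduce
    omega
  · intro g hg g' hg' e
    refine D.act_injective q fun t => ?_
    rw [← (D.anchored_spec (mem_coe.1 hg) t).2, ← (D.anchored_spec (mem_coe.1 hg') t).2]
    exact congrArg (D.geo h t) (congrFun e t)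

open Classical in
/-- The possible next points before the marker `c` from the state `(z, v)`. -/
noncomputable def cands (D₀ P B : ℕ) (e z v c : Γ) : Finset Γ :=
  (D.anchored (B + P) B (fun t => D.geo c t P) v).filter fun x =>
    (∀ t, Lox (D.φ t) c ∧ 2 * P + 1 ≤ D.len t c ∧
      D.drop z e v t + 99 * (3 * D₀) ≤ D.anchor x (fun t => D.geo c t P) t) ∧
      D.Mirror (fun t i => D.geo v t (D.drop z e v t + i)) c (fun t => D.geo c t P)
        (fun t => D.len t c - 2 * P) (3 * D₀)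
        fun t => D.anchor x (fun t => D.geo c t P) t - D.drop z e v t

theorem mem_cands {D₀ P B : ℕ} {e z v c x : Γ} : x ∈ D.cands D₀ P B e z v c ↔
    x ∈ D.anchored (B + P) B (fun t => D.geo c t P) v ∧
    (∀ t, Lox (D.φ t) c ∧ 2 * P + 1 ≤ D.len t c ∧
      D.drop z e v t + 99 * (3 * D₀) ≤ D.anchor x (fun t => D.geo c t P) t) ∧
      D.Mirror (fun t i => D.geo v t (D.drop z e v t + i)) c (fun t => D.geo c t P)
        (fun t => D.len t c - 2 * P) (3 * D₀)
        fun t => D.anchor x (fun t => D.geo c t P) t - D.drop z e v t := by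
  classical
  exact mem_filter

open Classical in
/-- The possible next steps from the state `(z, v)`. -/
noncomputable def steps (C : Finset Γ) (D₀ P B : ℕ) (e z v : Γ) : Finset (Γ × Γ) :=
  C.biUnion fun c => (D.cands D₀ P B e z v c).image fun x => (x, c)

open Classical in
theorem card_steps [Fintype κ] (C : Finset Γ) (D₀ P : ℕ) {B K : ℕ}
    (hK : ∀ c ∈ C, ∀ t, D.len t c ≤ K) (e z v : Γ) :
    (D.steps C D₀ P B e z v).card ≤
      C.card * (2 ^ Fintype.card κ * (16 * K + 1) ^ Fintype.card κ) *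
        (Nat.log 2 B + 1) ^ Fintype.card κ := by
  set m := Fintype.card κ
  rw [mul_assoc]
  refine card_biUnion_le.trans ((sum_le_card_nsmul _ _ _ fun c hc => ?_).trans_eq (smul_eq_mul _ _))
  refine card_image_le.trans ?_
  set A := D.cands D₀ P B e z v c
  rcases A.eq_empty_or_nonempty with hA | ⟨x₀, hx₀⟩
  · rw [hA, card_empty]
    exact Nat.zero_le _
  have hc1 := (D.mem_cands.1 hx₀).2.1
  set M := A.image fun x t => D.anchor x (fun t => D.geo c t P) t - D.drop z e v t
  have hinj : A.card = M.card := by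
    refine (card_image_of_injOn fun x hx x' hx' h => D.act_injective (fun t => D.geo c t P) fun t => ?_).symm
    obtain ⟨hb, h1, -⟩ := D.mem_cands.1 (mem_coe.1 hx)
    obtain ⟨hb', h1', -⟩ := D.mem_cands.1 (mem_coe.1 hx')
    have e := congrFun h t
    beta_reduce at e
    have := (h1 t).2.2
    have := (h1' t).2.2
    rw [← (D.anchored_spec hb t).2, ← (D.anchored_spec hb' t).2,
      show D.anchor x (fun t => D.geo c t P) t = D.anchor x' (fun t => D.geo c t P) t by omega]
  have hM := D.card_mirrors (fun t i => D.geo v t (D.drop z e v t + i)) c (fun t => D.geo c t P)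
    (fun t => D.len t c - 2 * P) (3 * D₀) (fun t => by have := (hc1 t).2.1; omega)
    (fun t => (hc1 t).1) B M fun a ha => by
      obtain ⟨x, hx, rfl⟩ := mem_image.1 ha
      obtain ⟨hb, h1, hm⟩ := D.mem_cands.1 hx
      refine ⟨hm, fun t => ?_⟩
      have := (D.anchored_spec hb t).1
      have := (h1 t).2.2
      beta_reduce
      omega
  have hprod : ∏ t, ((Nat.log 2 B + 1) * (16 * (D.len t c - 2 * P)))
      ≤ ((Nat.log 2 B + 1) * (16 * K + 1)) ^ m := by
    refine (prod_le_prod' fun t _ => ?_).trans_eq (by rw [prod_const, card_univ])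
    exact Nat.mul_le_mul le_rfl (by have := hK c hc t; omega)
  rw [mul_pow] at hprod
  have hfin := hinj.le.trans (hM.trans (Nat.mul_le_mul le_rfl hprod))
  exact hfin.trans (le_of_eq (by ring))

/-- The ascent towards the next marker is retraced by the rest of the product, up to `D₀`. -/
theorem retrace {C : Finset Γ} {D₀ P : ℕ} (hP : 4 * D₀ ≤ P) {e y z z' c : Γ} {zs cs : List Γ}
    (hth : D.Threaded C D₀ P e y z (z' :: zs) (c :: cs)) (hlast : (z' :: zs).getLast? = some e)
    (hflag : D.Descending e (z :: z' :: zs)) (t : κ) :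
    D.len t (z⁻¹ * z') ≤ D.meet t 1 (z⁻¹ * z') (z⁻¹ * e) + D₀ +
      D.meet t 1 (z⁻¹ * z')⁻¹ (val y z' zs cs) := by
  cases zs with
  | nil =>
    simp only [List.getLast?_singleton, Option.some.injEq] at hlast
    subst hlast
    have := D.meet_spec t 1 (z⁻¹ * z') (z⁻¹ * z')
    simp only [inv_one, one_mul, inv_mul_cancel, len_one] at this
    omega
  | cons z'' zs =>
  obtain ⟨c', cs, rfl⟩ : ∃ c' cs', cs = c' :: cs' := by
    cases cs with
    | nil => exact absurd hth.2.2 (by simp [Threaded])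
    | cons c' cs' => exact ⟨c', cs', rfl⟩
  obtain ⟨-, -, h4, h1, -, h2⟩ := hth.2.2.2.1 t
  obtain ⟨-, l2, -, -, -⟩ := D.step_geo t hP h1 h2 h4
  have b1 := D.meet_spec t 1 (z'⁻¹ * z'') (val y z' (z'' :: zs) (c' :: cs))
  have hmu := D.meet_min t 1 (z⁻¹ * z')⁻¹ (z'⁻¹ * z'') (val y z' (z'' :: zs) (c' :: cs))
  rw [val_cons] at b1 hmu ⊢
  set W := c' * val y z'' zs cs
  have hz := hflag.1 t
  have a1 := D.meet_spec t 1 (z⁻¹ * z')⁻¹ (z'⁻¹ * z'')
  have a2 := D.meet_spec t 1 (z⁻¹ * z') (z⁻¹ * e)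
  have a3 := D.meet_spec t e z z'
  have a4 := D.meet_spec t e z' z''
  have a5 := D.meet_spec t z' z z''
  have a6 := D.meet_spec t z' z e
  have a7 := D.meet_spec t z' e z''
  have hmin : min (D.meet t z' z e) (D.meet t z' e z'') ≤ D.meet t z' z z'' :=
    gp_min (D.tree t) _ _ _ _
  have b2 := (D.meet_le t 1 (z⁻¹ * z')⁻¹ (z'⁻¹ * z'')).2
  rw [inv_mul_cancel_left] at b1
  simp only [inv_one, one_mul, mul_inv_rev, inv_inv, mul_assoc, mul_inv_cancel_left]
    at a1 a2 a3 a4 a5 a6 a7 b1 b2 hmu l2 h1 ⊢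
  have s1 : D.len t (z'⁻¹ * z) = D.len t (z⁻¹ * z') := by
    rw [← D.len_inv t (z⁻¹ * z')]; simp
  have s2 : D.len t (z⁻¹ * e) = D.len t (e⁻¹ * z) := by
    rw [← D.len_inv t (e⁻¹ * z)]; simp
  have s3 : D.len t (z'⁻¹ * e) = D.len t (e⁻¹ * z') := by
    rw [← D.len_inv t (e⁻¹ * z')]; simp
  omega

/-- Two directions that agree for more than `D₀` overlap equally with a marker. -/
theorem overlap_eq (t : κ) {a b c : Γ} {D₀ : ℕ} (hN : D₀ ≤ D.meet t 1 c c⁻¹)
    (hM : D₀ < D.meet t 1 a b) (h1 : D.meet t 1 c a ≤ D₀) (h2 : D.meet t 1 c⁻¹ b ≤ D₀) :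
    D.meet t 1 c a = D.meet t 1 c⁻¹ b := by
  have := D.meet_min t 1 c c⁻¹ b
  have := D.meet_min t 1 c b a
  have := D.meet_min t 1 c⁻¹ c a
  have := D.meet_min t 1 c⁻¹ a b
  have := D.meet_comm t 1 a b
  have := D.meet_comm t 1 c c⁻¹
  omega

/-- The conjugated marker maps the path before the vertex `P` steps into it onto the path after. -/
theorem relation {x c u : Γ} {D₀ P i : ℕ} (t : κ) (hP : 4 * D₀ ≤ P)
    (h1 : D.meet t 1 c x⁻¹ ≤ D₀) (h2 : D.meet t 1 c⁻¹ u ≤ D₀) (h3 : P ≤ D.meet t 1 c c⁻¹)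
    (h4 : 2 * P + 1 ≤ D.len t c)
    (hi : (i + D.meet t 1 c x⁻¹ ≤ P ∧ i + D.meet t 1 c⁻¹ u ≤ P) ∨
      (D.meet t 1 c x⁻¹ = D.meet t 1 c⁻¹ u ∧
        i + 2 * D.meet t 1 c x⁻¹ ≤ D.meet t 1 x⁻¹ u + P ∧ P ≤ i + D.meet t 1 c x⁻¹)) :
    D.act t (x * c * x⁻¹)
        (D.geo (x * (c * u)) t (D.len t x + P - 2 * D.meet t 1 c x⁻¹ - i)) =
      D.geo (x * (c * u)) t
        (D.len t x + P - 2 * D.meet t 1 c x⁻¹ + (D.len t c - 2 * P) + i) := by
  obtain ⟨-, -, p, q, r⟩ := D.step_geo t hP h1 h2 h4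
  have m1 := (D.meet_le t 1 c x⁻¹).2
  have m2 := D.meet_le t 1 x⁻¹ u
  simp only [inv_one, one_mul, len_inv] at m1 m2
  rcases hi with ⟨hi1, hi2⟩ | ⟨hσ, hj, hi⟩
  · have eq1 := q (P - i) (by omega) (by omega)
    have eq2 := q (D.len t c - P + i) (by omega) (by omega)
    rw [show D.len t x + (P - i) - 2 * D.meet t 1 c x⁻¹ =
      D.len t x + P - 2 * D.meet t 1 c x⁻¹ - i by omega] at eq1
    rw [show D.len t x + (D.len t c - P + i) - 2 * D.meet t 1 c x⁻¹ =
      D.len t x + P - 2 * D.meet t 1 c x⁻¹ + (D.len t c - 2 * P) + i by omega] at eq2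
    rw [eq1, eq2, act_mul, act_mul, act_inv_act,
      D.geo_eq_of_meet t c c⁻¹ (show P - i ≤ D.meet t 1 c c⁻¹ by omega),
      D.geo_inv t c (show P - i ≤ D.len t c by omega), ← D.act_mul t c, mul_inv_cancel, act_one,
      show D.len t c - (P - i) = D.len t c - P + i by omega]
  · obtain ⟨j, hj'⟩ : ∃ j, j + P = i + 2 * D.meet t 1 c x⁻¹ :=
      ⟨i + 2 * D.meet t 1 c x⁻¹ - P, by omega⟩
    have hjM : j ≤ D.meet t 1 x⁻¹ u := by omega
    have eq1 := p (D.len t x + P - 2 * D.meet t 1 c x⁻¹ - i) (by omega)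
    have eq2 := r j (by omega) (by omega)
    rw [show D.len t x + D.len t c + j - 2 * D.meet t 1 c x⁻¹ - 2 * D.meet t 1 c⁻¹ u =
      D.len t x + P - 2 * D.meet t 1 c x⁻¹ + (D.len t c - 2 * P) + i by omega] at eq2
    rw [eq1, eq2, act_mul, act_mul, ← D.geo_eq_of_meet t _ _ hjM,
      D.geo_inv t x (show j ≤ D.len t x by omega),
      show D.len t x - j = D.len t x + P - 2 * D.meet t 1 c x⁻¹ - i by omega]

/-- The next step of a threaded chain is among the steps. -/
theorem mem_steps {C : Finset Γ} {D₀ P B : ℕ} (hP : 400 * D₀ ≤ P) {e y z z' c : Γ}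
    {zs cs : List Γ} (hth : D.Threaded C D₀ P e y z (z' :: zs) (c :: cs))
    (hlast : (z' :: zs).getLast? = some e) (hflag : D.Descending e (z :: z' :: zs))
    (hB : ∀ t, D.len t (val y z (z' :: zs) (c :: cs)) ≤ B) :
    (z⁻¹ * z', c) ∈ D.steps C D₀ P B e z (val y z (z' :: zs) (c :: cs)) := by
  classical
  have hP' : 4 * D₀ ≤ P := by omega
  have hon := fun t => (D.marker_on hP' hth t).2
  have hret := fun t => D.retrace hP' hth hlast hflag t
  refine mem_biUnion.2 ⟨c, hth.1, mem_image.2 ⟨z⁻¹ * z', ?_, rfl⟩⟩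
  have hanc : z⁻¹ * z' ∈
      D.anchored (B + P) B (fun t => D.geo c t P) (val y z (z' :: zs) (c :: cs)) := by
    exact D.mem_anchored (P := P) (fun t => D.dist_geo_le t _ _) le_rfl hB hon
  set x := z⁻¹ * z' with hx
  set u := val y z' zs cs with hu
  set v := val y z (z' :: zs) (c :: cs) with hv
  have hvx : v = x * (c * u) := rfl
  have hR : z⁻¹ * e = x * (z'⁻¹ * e) := by rw [hx]; group
  have main : ∀ t, D.anchor x (fun t => D.geo c t P) t =
      D.len t x + P - 2 * D.meet t 1 c x⁻¹ ∧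
      D.drop z e v t + P + D.meet t 1 c x⁻¹ ≤ D.len t x + P + D₀ ∧
      min (D.meet t 1 x (z⁻¹ * e)) (D.len t x - D.meet t 1 c x⁻¹) ≤ D.drop z e v t ∧
      (D.meet t 1 x (z⁻¹ * e) + D.meet t 1 c x⁻¹ < D.len t x →
        D.drop z e v t ≤ D.meet t 1 x (z⁻¹ * e)) := by
    intro t
    obtain ⟨-, h3, h4, h1, h5, h2⟩ := hth.2.1 t
    rw [← hx] at h1
    rw [← hu] at h2
    obtain ⟨l1, l2, p, q, -⟩ := D.step_geo t hP' h1 h2 h4
    have m1 := (D.meet_le t 1 c x⁻¹).2
    have m2 := (D.meet_le t 1 c⁻¹ u).2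
    have a1 := D.meet_spec t 1 v (z⁻¹ * e)
    have a2 := D.meet_spec t 1 (c * u) (z'⁻¹ * e)
    have a3 := D.meet_spec t 1 c (c * u)
    have a4 := D.meet_spec t 1 v x
    have a5 := D.len_mul_le t x (z'⁻¹ * e)
    have a6 := D.meet_min t 1 c (c * u) (z'⁻¹ * e)
    have a7 := D.meet_min t 1 v x (z⁻¹ * e)
    have a8 := D.meet_min t 1 x v (z⁻¹ * e)
    have a9 := D.meet_comm t 1 x v
    rw [show v⁻¹ * (z⁻¹ * e) = (c * u)⁻¹ * (z'⁻¹ * e) by rw [hR, hvx]; group] at a1
    rw [show v⁻¹ * x = (c * u)⁻¹ by rw [hvx]; group, len_inv] at a4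
    rw [inv_mul_cancel_left] at a3
    rw [← hR] at a5
    rw [← hvx] at l2 q
    simp only [inv_one, one_mul, len_inv] at m1 m2 a1 a2 a3 a4
    have hdrop : D.drop z e v t = D.meet t 1 v (z⁻¹ * e) := rfl
    refine ⟨?_, by omega, by omega, fun h => by omega⟩
    rw [anchor, ← q P (by omega) (by omega), D.dist_geo t (by omega)]
  refine D.mem_cands.2 ⟨hanc, fun t => ⟨(hth.2.1 t).1, (hth.2.1 t).2.2.1, ?_⟩, x,
    fun t => ?_, fun t i hi => ?_⟩
  · obtain ⟨e1, e2, -, -⟩ := main t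
    have := (hth.2.1 t).2.2.2.1
    rw [← hx] at this
    rw [e1]
    omega
  · obtain ⟨e1, e2, -, -⟩ := main t
    have := (hth.2.1 t).2.2.2.1
    rw [← hx] at this
    beta_reduce
    rw [Nat.add_sub_cancel' (by rw [e1]; omega)]
    exact ((D.anchored_spec hanc t).2).symm
  · obtain ⟨e1, e2, e3, e4⟩ := main t
    beta_reduce at hi ⊢
    rw [e1] at hi ⊢
    obtain ⟨-, h3, h4, h1, h5, h2⟩ := hth.2.1 t
    rw [← hx] at h1
    rw [← hu] at h2
    have m1 := (D.meet_le t 1 c x⁻¹).2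
    simp only [inv_one, one_mul, len_inv] at m1
    rw [show D.drop z e v t +
          (D.len t x + P - 2 * D.meet t 1 c x⁻¹ - D.drop z e v t - i) =
        D.len t x + P - 2 * D.meet t 1 c x⁻¹ - i by omega,
      show D.drop z e v t + (D.len t x + P - 2 * D.meet t 1 c x⁻¹ - D.drop z e v t +
          (D.len t c - 2 * P) + i) =
        D.len t x + P - 2 * D.meet t 1 c x⁻¹ + (D.len t c - 2 * P) + i by omega]
    rw [hvx]
    refine D.relation t hP' h1 h2 h3 h4 ?_
    by_cases harm : i + D.meet t 1 c x⁻¹ ≤ P ∧ i + D.meet t 1 c⁻¹ u ≤ P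
    · exact Or.inl harm
    · -- the marker is far above the drop, so both overlaps agree
      have hr := hret t
      obtain ⟨hM, hjM⟩ : D₀ < D.meet t 1 x⁻¹ u ∧
          i + 2 * D.meet t 1 c x⁻¹ ≤ D.meet t 1 x⁻¹ u + P := by
        omega
      have hσ := D.overlap_eq t (c := c) (by omega) hM h1 h2
      exact Or.inr ⟨hσ, hjM, by omega⟩

open Classical in
/-- The chains that may follow the state `(z, v)`. -/
noncomputable def readings (C : Finset Γ) (D₀ P B : ℕ) (e : Γ) : ℕ → Γ → Γ → Finset (List Γ)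
  | 0, _, _ => {[]}
  | k + 1, z, v => (D.steps C D₀ P B e z v).biUnion fun q =>
      (readings C D₀ P B e k (z * q.1) ((q.1 * q.2)⁻¹ * v)).image fun l => z * q.1 :: l

open Classical in
theorem card_readings [Fintype κ] (C : Finset Γ) (D₀ P : ℕ) {B K : ℕ}
    (hK : ∀ c ∈ C, ∀ t, D.len t c ≤ K) (e : Γ) :
    ∀ (k : ℕ) (z v : Γ), (D.readings C D₀ P B e k z v).card ≤
      (C.card * (2 ^ Fintype.card κ * (16 * K + 1) ^ Fintype.card κ) *
        (Nat.log 2 B + 1) ^ Fintype.card κ) ^ k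
  | 0, z, v => by simp [readings]
  | k + 1, z, v => by
      rw [readings, pow_succ']
      refine card_biUnion_le.trans ((sum_le_card_nsmul _ _ _ fun q _ =>
        card_image_le.trans (card_readings C D₀ P hK e k _ _)).trans ?_)
      rw [smul_eq_mul]
      exact Nat.mul_le_mul_right _ (D.card_steps C D₀ P hK e z v)

theorem mem_readings {C : Finset Γ} {D₀ P B : ℕ} (hP : 400 * D₀ ≤ P) {e y : Γ} :
    ∀ (zs cs : List Γ) (z : Γ), D.Threaded C D₀ P e y z zs cs →
      (zs ≠ [] → zs.getLast? = some e) → D.Descending e (z :: zs) →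
      (∀ t, D.len t (val y z zs cs) ≤ B) →
        zs ∈ D.readings C D₀ P B e zs.length z (val y z zs cs)
  | [], [], z, _, _, _, _ => by simp [readings]
  | [], c :: cs, z, h, _, _, _ => absurd h (by simp [Threaded])
  | z' :: zs, [], z, h, _, _, _ => absurd h (by simp [Threaded])
  | z' :: zs, c :: cs, z, h, hlast, hflag, hB => by
      classical
      rw [List.length_cons, readings]
      refine mem_biUnion.2 ⟨_, D.mem_steps hP h (hlast (by simp)) hflag hB,
        mem_image.2 ⟨zs, ?_, ?_⟩⟩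
      · rw [mul_inv_cancel_left,
          show (z⁻¹ * z' * c)⁻¹ * val y z (z' :: zs) (c :: cs) = val y z' zs cs by
            rw [val_cons]; group]
        refine mem_readings hP zs cs z' h.2.2 (fun hne => ?_) ?_ fun t => ?_
        · have := hlast (by simp)
          rwa [List.getLast?_cons_of_ne_nil hne] at this
        · cases zs with
          | nil => trivial
          | cons _ _ => exact hflag.2
        · exact (D.marker_on (by omega) h t).1.trans (hB t)
      · rw [mul_inv_cancel_left]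

open Classical in
/-- All chains of length `k + 1` that may give the product `h`. -/
noncomputable def preimages (C : Finset Γ) (D₀ P B k : ℕ) (y h : Γ) : Finset (List Γ) :=
  C.biUnion fun c' => (D.anchored (B + P) B (fun t => D.geo c'⁻¹ t P) h).biUnion fun g =>
    C.biUnion fun c => (D.anchored (B + P) B (fun t => D.geo c t P) h).biUnion fun z =>
      (D.readings C D₀ P B (y * h⁻¹ * g) k z ((z * c)⁻¹ * h)).image fun l => z :: l

open Classical in
theorem card_preimages [Fintype κ] [DecidableEq κ] (C : Finset Γ) (D₀ P : ℕ) {B K : ℕ}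
    (hK : ∀ c ∈ C, ∀ t, D.len t c ≤ K) (k : ℕ) (y h : Γ) :
    (D.preimages C D₀ P B k y h).card ≤ (C.card * (B + 1) ^ Fintype.card κ) ^ 2 *
      (C.card * (2 ^ Fintype.card κ * (16 * K + 1) ^ Fintype.card κ) *
        (Nat.log 2 B + 1) ^ Fintype.card κ) ^ k := by
  rw [sq, mul_assoc, mul_assoc, mul_assoc]
  refine card_biUnion_le.trans ((sum_le_card_nsmul _ _ _ fun c' _ => ?_).trans (smul_eq_mul _ _).le)
  refine card_biUnion_le.trans ((sum_le_card_nsmul _ _ _ fun g _ => ?_).trans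
    ((smul_eq_mul _ _).le.trans (Nat.mul_le_mul_right _ (D.card_anchored _ B _ h))))
  refine card_biUnion_le.trans ((sum_le_card_nsmul _ _ _ fun c _ => ?_).trans (smul_eq_mul _ _).le)
  refine card_biUnion_le.trans ((sum_le_card_nsmul _ _ _ fun z _ => ?_).trans
    ((smul_eq_mul _ _).le.trans (Nat.mul_le_mul_right _ (D.card_anchored _ B _ h))))
  exact card_image_le.trans (D.card_readings C D₀ P hK _ k z _)

theorem mem_preimages {C : Finset Γ} {D₀ P B : ℕ} (hP : 400 * D₀ ≤ P) {y z : Γ}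
    {zs cs : List Γ} {e : Γ} (hth : D.Threaded C D₀ P e y 1 (z :: zs) cs)
    (hlast : (z :: zs).getLast? = some e)
    (hflag : D.Descending e (z :: zs)) (hB : ∀ t, D.len t (val y 1 (z :: zs) cs) ≤ B) :
    z :: zs ∈ D.preimages C D₀ P B zs.length y (val y 1 (z :: zs) cs) := by
  classical
  cases cs with
  | nil => exact absurd hth (by simp [Threaded])
  | cons c cs =>
  have hP' : 4 * D₀ ≤ P := by omega
  obtain ⟨c', hc', g, hg, hp⟩ := D.exists_suffix hP' _ _ _ hth hlast
  have hon := fun t => D.marker_on hP' hth t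
  set h := val y 1 (z :: zs) (c :: cs) with hh
  have he : y * h⁻¹ * g = e := by rw [hg]; group
  refine mem_biUnion.2 ⟨c', hc', mem_biUnion.2 ⟨g, ?_, mem_biUnion.2 ⟨c, hth.1,
    mem_biUnion.2 ⟨z, ?_, mem_image.2 ⟨zs, ?_, rfl⟩⟩⟩⟩⟩
  · refine D.mem_anchored (P := P) (fun t => ?_) le_rfl hB fun t => ?_
    · exact D.dist_geo_le t _ _
    · obtain ⟨p, -, hp1, hp2⟩ := hp t
      exact ⟨p, hp1, hp2⟩
  · refine D.mem_anchored (P := P) (fun t => ?_) le_rfl hB fun t => ?_
    · exact D.dist_geo_le t _ _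
    · obtain ⟨p, hp1, hp2⟩ := (hon t).2
      rw [inv_one, one_mul] at hp2
      exact ⟨p, hp1, hp2⟩
  · rw [he, show (z * c)⁻¹ * h = val y z zs cs by rw [hh, val_cons]; group]
    refine D.mem_readings hP zs cs z hth.2.2 (fun hne => ?_) hflag fun t => ?_
    · rwa [List.getLast?_cons_of_ne_nil hne] at hlast
    · exact (hon t).1.trans (hB t)

/-- The list form of `Flag`. -/
theorem descending_of (e : Γ) : ∀ l : List Γ,
    (∀ (t : κ) (i : ℕ), ∀ a ∈ l[i]?, ∀ b ∈ l[i + 1]?, ∀ c ∈ l[i + 2]?,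
      D.meet t e b c ≤ D.meet t e a b) → D.Descending e l
  | [], _ => trivial
  | [_], _ => trivial
  | [_, _], _ => trivial
  | a :: b :: c :: zs, h => ⟨fun t => h t 0 a (by simp) b (by simp) c (by simp),
      descending_of e (b :: c :: zs) fun t i x hx y hy z hz =>
        h t (i + 1) x (by simpa using hx) y (by simpa using hy) z (by simpa using hz)⟩

end PAct

end Vale.Agent.P165.SG
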