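import Vale.Agent.P165.SG.Lox

/-!
# Isometries of trees: products of powers of two elements, and conjugates with new ends
-/

namespace Vale.Agent.P165.SG

open TL

variable {Γ V : Type} [Group Γ] {H : SimpleGraph V} (hT : H.IsTree) (f : Γ →* (H ≃g H)) (u : V)
include hT

/-- Powers of a loxodromic element and of an element fixing a vertex multiply to loxodromics,
for all large exponents divisible by a period. -/
theorem lox_mul_elliptic {g q : Γ} {p : V} (hg : Lox f g) (hq : f q p = p) :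
    ∃ L B : ℕ, 1 ≤ L ∧ ∀ n ≥ B, L ∣ n → Lox f (g ^ n * q ^ n) := by
  set s := dsp f p g
  have hs2 : dsp f p (g * g) ≤ 2 * s := by have := dsp_mul_le hT f p g g; omega
  -- the first branch after the common part of the two ends
  set N := 2 * s + 2
  set Pp := pt H p (f (g ^ N) p) (s + 1) with hPp
  set Pm := pt H p (f (g⁻¹ ^ N) p) (s + 1) with hPm
  have hstab : ∀ a : Γ, Lox f a → dsp f p a = s → ∀ n ≥ N,
      pt H p (f (a ^ n) p) (s + 1) = pt H p (f (a ^ N) p) (s + 1) := fun a ha has n hn => by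
    obtain ⟨-, -, h3, -⟩ := gp_spec hT p (f (a ^ N) p) (f (a ^ n) p)
    refine (h3 _ ?_).symm
    show s + 1 ≤ sh f p (a ^ N) (a ^ n)
    have := le_sh_pow hT f p ha N n hn
    have := le_dsp_pow hT f p ha N
    omega
  have hne : Pp ≠ Pm := fun h => by
    obtain ⟨g1, g2, -, g4, g5⟩ := gp_spec hT p (f (g ^ N) p) (f (g⁻¹ ^ N) p)
    have e := g4 (s + 1) (by have := le_dsp_pow hT f p hg N; simp only [dsp] at *; omega)
      (by have := le_dsp_pow hT f p (lox_inv hT f hg) N; simp only [dsp] at *; omega) h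
    have e2 := sh_eq hT f p (g ^ N) (g⁻¹ ^ N)
    rw [inv_pow, dsp_inv hT, ← mul_inv_rev, ← pow_add, dsp_inv hT] at e2
    rw [inv_pow] at e
    have a := dsp_pow hT f p g (hg p) (2 * s + 1)
    have b := dsp_pow hT f p g (hg p) (2 * s + 1 + N)
    rw [show 2 * s + 1 + N + 1 = N + N by omega] at b
    rw [show 2 * s + 1 + 1 = N by omega] at a
    rw [Nat.add_mul (2 * s + 1) N, show N = 2 * s + 1 + 1 by omega, Nat.add_mul (2 * s + 1) 1,
      Nat.one_mul, ← show N = 2 * s + 1 + 1 by omega] at b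
    have := hg p
    change s + 1 ≤ sh f p (g ^ N) (g ^ N)⁻¹ at e
    omega
  have hfix : ∀ i : ℕ, f (q ^ i) p = p := fun i => by
    induction i with
    | zero => rw [pow_zero, f_one]
    | succ i ih => rw [pow_succ, f_mul, hq, ih]
  obtain ⟨L, B, hL, hgood⟩ : ∃ L B : ℕ, 1 ≤ L ∧ ∀ l ≥ B, L ∣ l → f (q ^ l) Pp ≠ Pm := by
    by_cases hper : ∃ d, 1 ≤ d ∧ f (q ^ d) Pp = Pp
    · obtain ⟨d, hd, hd'⟩ := hper
      have h : ∀ j, f (q ^ (d * j)) Pp = Pp := fun j => by
        induction j with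
        | zero => rw [Nat.mul_zero, pow_zero, f_one]
        | succ j ih => rw [Nat.mul_succ, pow_add, f_mul, hd', ih]
      refine ⟨d, 0, hd, fun l _ hl => ?_⟩
      obtain ⟨j, rfl⟩ := hl
      rwa [h j]
    · push Not at hper
      by_cases hbad : ∃ l, f (q ^ l) Pp = Pm
      · obtain ⟨l, hl⟩ := hbad
        refine ⟨1, l + 1, le_rfl, fun i hi _ h => hper (i - l) (by omega) ((f (q ^ l)).injective ?_)⟩
        rw [← f_mul, ← pow_add, Nat.add_sub_cancel' (by omega), h, hl]
      · push Not at hbad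
        exact ⟨1, 0, le_rfl, fun l _ _ => hbad l⟩
  refine ⟨L, max B (N + 2 * s + 2), hL, fun n hn hdvd => (lox_iff hT f p _).2 ?_⟩
  have hgl := hgood n (by omega) hdvd
  set a := g ^ n * q ^ n with ha
  have hap : f a p = f (g ^ n) p := by rw [ha, f_mul, hfix]
  have hqi : f (q ^ n)⁻¹ p = p := (f (q ^ n)).injective (by rw [← f_mul, mul_inv_cancel, f_one, hfix])
  have hlen : dsp f p a = dsp f p (g ^ n) := by rw [dsp, hap]; rfl
  have hb : sh f p a a⁻¹ ≤ s := by
    by_contra hlt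
    have hlt' : s + 1 ≤ gp H p (f a p) (f a⁻¹ p) := Nat.lt_of_not_le hlt
    obtain ⟨-, -, h3, -⟩ := gp_spec hT p (f a p) (f a⁻¹ p)
    have e := h3 (s + 1) hlt'
    rw [hap, hstab g hg rfl n (by omega), ← hPp, ha, mul_inv_rev, f_mul] at e
    have e2 : f (q ^ n)⁻¹ (pt H p (f (g ^ n)⁻¹ p) (s + 1)) =
        pt H p (f (q ^ n)⁻¹ (f (g ^ n)⁻¹ p)) (s + 1) := by
      rw [← pt_map hT hT (f (q ^ n)⁻¹), hqi]
    rw [← e2, ← inv_pow g, hstab g⁻¹ (lox_inv hT f hg) (dsp_inv hT f p g) n (by omega), ← hPm] at e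
    exact hgl (by rw [e, ← f_mul, mul_inv_cancel, f_one])
  have e := sh_eq hT f p a a⁻¹
  rw [dsp_inv hT, ← mul_inv_rev, dsp_inv hT] at e
  have := le_dsp_pow hT f p hg n
  omega

/-- Powers of two loxodromics with separated ends multiply to a loxodromic. -/
theorem lox_mul_lox {g h : Γ} (hg : Lox f g) (hh : Lox f h) (h1 : ¬Same f u g⁻¹ h)
    (h2 : ¬Same f u g h⁻¹) : ∃ B : ℕ, ∀ n ≥ B, Lox f (g ^ n * h ^ n) := by
  obtain ⟨R, hR⟩ := (same_or_bounded hT f u (lox_inv hT f hg) hh).resolve_left h1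
  obtain ⟨R', hR'⟩ := (same_or_bounded hT f u hg (lox_inv hT f hh)).resolve_left h2
  refine ⟨3 * (R + R') + 1, fun n hn => (lox_iff hT f u _).2 ?_⟩
  set a := g ^ n * h ^ n with ha
  have i1 := hR n n
  have i2 := hR' n n
  rw [inv_pow] at i1 i2
  have e1 := sh_eq hT f u (g ^ n)⁻¹ (h ^ n)
  rw [inv_inv, dsp_inv hT, ← ha] at e1
  have e2 := sh_eq hT f u a (g ^ n)
  rw [ha, show (g ^ n * h ^ n)⁻¹ * g ^ n = (h ^ n)⁻¹ by group, dsp_inv hT, ← ha] at e2
  have e3 := sh_eq hT f u a⁻¹ (h ^ n)⁻¹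
  rw [ha, show (g ^ n * h ^ n)⁻¹⁻¹ * (h ^ n)⁻¹ = g ^ n by group, ← ha, dsp_inv hT, dsp_inv hT] at e3
  have e4 := sh_eq hT f u a a⁻¹
  rw [dsp_inv hT, ← mul_inv_rev, dsp_inv hT] at e4
  have m1 := sh_min hT f u (g ^ n) a a⁻¹
  have m2 := sh_min hT f u (g ^ n) a⁻¹ (h ^ n)⁻¹
  rw [sh_comm hT f u (g ^ n) a] at m1
  have := le_dsp_pow hT f u hg n
  have := le_dsp_pow hT f u hh n
  omega

/-- The elements preserving the forward end of a loxodromic element. -/
def endStab {a : Γ} (ha : Lox f a) : Subgroup Γ where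
  carrier := {x | Same f u (x * a * x⁻¹) a}
  one_mem' := by simpa using same_refl hT f u ha
  mul_mem' := fun {x y} hx hy => by
    have h := same_conj hT f u (lox_conj hT f ha y) ha hy x
    have e : x * y * a * (x * y)⁻¹ = x * (y * a * y⁻¹) * x⁻¹ := by group
    show Same f u (x * y * a * (x * y)⁻¹) a
    rw [e]
    exact same_trans hT f u h hx
  inv_mem' := fun {x} hx => by
    have h := same_conj hT f u (lox_conj hT f ha x) ha hx x⁻¹
    have e : x⁻¹ * (x * a * x⁻¹) * x⁻¹⁻¹ = a := by group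
    rw [e] at h
    exact same_symm hT f u h

/-- In an action of general type no end stabiliser has finite index. -/
theorem endStab_index {a : Γ} (ha : Lox f a) (hgt : GenType f u) :
    ¬(endStab hT f u ha).FiniteIndex := fun hfi => by
  obtain ⟨g, h, hg, hh, n1, n2, n3, n4⟩ := hgt
  have key : ∀ y, Lox f y → Same f u y a ∨ Same f u y⁻¹ a := fun y hy => by
    obtain ⟨k, hk, -, hmem⟩ := (endStab hT f u ha).exists_pow_mem_of_index_ne_zero hfi.index_ne_zero y
    rcases same_of_fix hT f u (lox_pow hT f hy hk) ha fun i =>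
      (endStab hT f u ha).pow_mem hmem i with h | h
    · exact Or.inl (same_trans hT f u (same_symm hT f u (same_pow hT f u hy hk)) h)
    · rw [← inv_pow] at h
      exact Or.inr
        (same_trans hT f u (same_symm hT f u (same_pow hT f u (lox_inv hT f hy) hk)) h)
  rcases key g hg with a1 | a1 <;> rcases key h hh with a2 | a2
  · exact n1 (same_trans hT f u a1 (same_symm hT f u a2))
  · exact n2 (same_trans hT f u a1 (same_symm hT f u a2))
  · exact n3 (same_trans hT f u a1 (same_symm hT f u a2))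
  · exact n4 (same_trans hT f u a1 (same_symm hT f u a2))

end Vale.Agent.P165.SG
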