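import Vale.Agent.P165.SG.Main
import Vale.Agent.P165.SG.FreeSub

/-!
# Subgroups of products of free groups have a nonuniqueness phase
-/

namespace Vale.Agent.P165.SG

/-- Free cofinite actions and virtual forms of a group embedded in a product of free groups with
nonabelian projections. -/
theorem pc_lt_pu_free_sub (m : ℕ) (hm : 1 ≤ m) (r : Fin m → ℕ) (Γ : Type) [Group Γ]
    (ψ : Γ →* ∀ t : Fin m, FreeGroup (Fin (r t))) (hψ : Function.Injective ψ)
    (hproj : ∀ t, ∃ g h : Γ, ψ g t * ψ h t ≠ ψ h t * ψ g t) :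
    (∀ (V : Type) (G : SimpleGraph V) (d : ℕ), G.Connected →
      (∀ v, (G.neighborSet v).encard = d) →
      ∀ (Φ : Γ →* (G ≃g G)), (∀ g v, Φ g v = v → g = 1) →
        ∀ R : Finset V, (∀ v, ∃ g, Φ g v ∈ R) → pc G < pu G) ∧
    ∀ (Δ : Type) [Group Δ] (s : Set Δ), s.Finite → Subgroup.closure s = ⊤ →
      ∀ φ : Γ →* Δ, Function.Injective φ → φ.range.FiniteIndex →
        pc (SimpleGraph.mulCayley s) < pu (SimpleGraph.mulCayley s) := by
  classical
  have : Nonempty (Fin m) := ⟨⟨0, hm⟩⟩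
  have hgt := freeSubAct_general ψ hψ hproj
  have hH := freeSubAct_haag ψ hψ
  exact ⟨fun V G d hc hd Φ free R cover =>
      pc_lt_pu_of_pact (freeSubAct ψ hψ) hgt hH G d hc hd Φ free R cover,
    fun Δ _ s hs hgen φ hφ hidx =>
      pc_lt_pu_pact_mulCayley (freeSubAct ψ hψ) hgt hH s hs hgen φ hφ hidx⟩

/-- Every Cayley graph of a finitely generated subgroup with nonabelian projections. -/
theorem pc_lt_pu_subgroup (m : ℕ) (hm : 1 ≤ m) (r : Fin m → ℕ)
    (K : Subgroup (∀ t : Fin m, FreeGroup (Fin (r t))))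
    (hproj : ∀ t, ∃ g ∈ K, ∃ h ∈ K, g t * h t ≠ h t * g t) (s : Set K) (hs : s.Finite)
    (hgen : Subgroup.closure s = ⊤) :
    pc (SimpleGraph.mulCayley s) < pu (SimpleGraph.mulCayley s) := by
  refine (pc_lt_pu_free_sub m hm r K K.subtype K.subtype_injective fun t => ?_).2 K s hs hgen
    (MonoidHom.id K) Function.injective_id ?_
  · obtain ⟨g, hg, h, hh, hne⟩ := hproj t
    exact ⟨⟨g, hg⟩, ⟨h, hh⟩, hne⟩
  · rw [MonoidHom.range_eq_top.2 Function.surjective_id]
    infer_instance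

/-- A product of free groups of rank at least two projects onto nonabelian groups. -/
theorem exists_noncomm (m : ℕ) (r : Fin m → ℕ) (hr : ∀ t, 2 ≤ r t) (t : Fin m) :
    ∃ g h : ∀ t : Fin m, FreeGroup (Fin (r t)), g t * h t ≠ h t * g t := by
  have h0 : 0 < r t := by have := hr t; omega
  have h1 : 1 < r t := hr t
  refine ⟨Pi.mulSingle t (FreeGroup.of ⟨0, h0⟩), Pi.mulSingle t (FreeGroup.of ⟨1, h1⟩), ?_⟩
  rw [Pi.mulSingle_eq_same, Pi.mulSingle_eq_same]
  intro e
  have := congrArg FreeGroup.toWord e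
  simp [FreeGroup.toWord_mul, FreeGroup.reduce, Fin.ext_iff] at this

end Vale.Agent.P165.SG
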