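import Vale.Agent.P165.TL.Tree

/-!
# Isometries of trees: loxodromic elements and their ends

For an action `f` on a tree and a base vertex `u`, an element is loxodromic if its square moves `u`
further than it does. Two elements have the same forward end if their orbits share arbitrarily long
initial segments.
-/

namespace Vale.Agent.P165.SG

open TL

variable {Γ V : Type} [Group Γ] {H : SimpleGraph V}

/-- The displacement of a vertex. -/
noncomputable def dsp (f : Γ →* (H ≃g H)) (u : V) (g : Γ) : ℕ := H.dist u (f g u)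

/-- The common part of the paths from a vertex to two of its translates. -/
noncomputable def sh (f : Γ →* (H ≃g H)) (u : V) (g h : Γ) : ℕ := gp H u (f g u) (f h u)

/-- An element translating along an axis. -/
def Lox (f : Γ →* (H ≃g H)) (g : Γ) : Prop := ∀ u, dsp f u g < dsp f u (g * g)

/-- The forward ends agree. -/
def Same (f : Γ →* (H ≃g H)) (u : V) (g h : Γ) : Prop :=
  ∀ R : ℕ, ∃ N : ℕ, ∀ n ≥ N, ∀ m ≥ N, R ≤ sh f u (g ^ n) (h ^ m)

/-- Two loxodromic elements with four distinct ends. -/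
def GenType (f : Γ →* (H ≃g H)) (u : V) : Prop :=
  ∃ g h : Γ, Lox f g ∧ Lox f h ∧ ¬Same f u g h ∧ ¬Same f u g h⁻¹ ∧ ¬Same f u g⁻¹ h ∧
    ¬Same f u g⁻¹ h⁻¹

theorem f_mul (f : Γ →* (H ≃g H)) (a b : Γ) (x : V) : f (a * b) x = f a (f b x) := by
  rw [map_mul]; rfl

theorem f_one (f : Γ →* (H ≃g H)) (x : V) : f 1 x = x := by rw [map_one]; rfl

/-- The four point condition. -/
theorem four_point (hT : H.IsTree) (a b c e : V) :
    H.dist a c + H.dist b e ≤ max (H.dist a b + H.dist c e) (H.dist a e + H.dist b c) := by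
  have h1 := (gp_spec hT a b c).2.2.2.2
  have h2 := (gp_spec hT a c e).2.2.2.2
  have h3 := (gp_spec hT a b e).2.2.2.2
  have := gp_min hT a b c e
  omega

section

variable (hT : H.IsTree) (f : Γ →* (H ≃g H)) (u : V)
include hT

theorem dist_f (g : Γ) (x y : V) : H.dist (f g x) (f g y) = H.dist x y :=
  dist_map hT hT (f g) x y

theorem dist_dsp (a b : Γ) : H.dist (f a u) (f b u) = dsp f u (a⁻¹ * b) := by
  have h := dist_f hT f a u (f (a⁻¹ * b) u)
  rwa [← f_mul, mul_inv_cancel_left] at h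

theorem dsp_inv (g : Γ) : dsp f u g⁻¹ = dsp f u g := by
  have h := dist_dsp hT f u g 1
  rw [f_one, mul_one, SimpleGraph.dist_comm] at h
  exact h.symm

omit hT in
theorem dsp_one : dsp f u (1 : Γ) = 0 := by rw [dsp, f_one, SimpleGraph.dist_self]

theorem sh_eq (a b : Γ) :
    dsp f u (a⁻¹ * b) + 2 * sh f u a b = dsp f u a + dsp f u b := by
  rw [← dist_dsp hT f u]
  exact (gp_spec hT u (f a u) (f b u)).2.2.2.2

theorem sh_comm (a b : Γ) : sh f u a b = sh f u b a := gp_comm hT _ _ _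

theorem sh_min (a b c : Γ) : min (sh f u a b) (sh f u b c) ≤ sh f u a c := gp_min hT _ _ _ _

theorem dsp_mul_le (a b : Γ) : dsp f u (a * b) ≤ dsp f u a + dsp f u b := by
  have := hT.connected.dist_triangle (u := u) (v := f a u) (w := f (a * b) u)
  rw [dist_dsp hT, inv_mul_cancel_left] at this
  exact this

theorem dsp_le_of_mul (a b : Γ) : dsp f u a ≤ dsp f u (a * b) + dsp f u b := by
  have := dsp_mul_le hT f u (a * b) b⁻¹
  rwa [mul_inv_cancel_right, dsp_inv hT] at this

/-- Multiplying on the right moves the position little. -/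
theorem sh_mul_right (a b : Γ) : dsp f u a ≤ sh f u (a * b) a + dsp f u b := by
  have h := sh_eq hT f u (a * b) a
  have h1 : dsp f u ((a * b)⁻¹ * a) = dsp f u b := by
    rw [show (a * b)⁻¹ * a = b⁻¹ by group, dsp_inv hT]
  have := dsp_le_of_mul hT f u a b
  omega

/-- Changing the base changes common parts by at most the displacement. -/
theorem sh_mul_left (x a b : Γ) : sh f u a b ≤ sh f u (x * a) (x * b) + dsp f u x := by
  have h := sh_eq hT f u (x * a) (x * b)
  rw [show (x * a)⁻¹ * (x * b) = a⁻¹ * b by group] at h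
  have h' := sh_eq hT f u a b
  have h1 := dsp_mul_le hT f u x⁻¹ (x * a)
  have h2 := dsp_mul_le hT f u x⁻¹ (x * b)
  rw [inv_mul_cancel_left, dsp_inv hT] at h1 h2
  omega

theorem dsp_change (v : V) (g : Γ) : dsp f v g ≤ dsp f u g + 2 * H.dist u v := by
  have h1 := hT.connected.dist_triangle (u := v) (v := u) (w := f g v)
  have h2 := hT.connected.dist_triangle (u := u) (v := f g u) (w := f g v)
  rw [dist_f hT] at h2
  have h3 : H.dist v u = H.dist u v := SimpleGraph.dist_comm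
  simp only [dsp]
  omega

theorem dsp_pow (g : Γ) (h : dsp f u g < dsp f u (g * g)) (n : ℕ) :
    dsp f u (g ^ (n + 1)) = dsp f u g + n * (dsp f u (g * g) - dsp f u g) := by
  set e := dsp f u (g * g) - dsp f u g with he
  have hg2 : dsp f u (g * g) ≤ dsp f u g + dsp f u g := dsp_mul_le hT f u g g
  suffices step : ∀ n, dsp f u (g ^ (n + 2)) = dsp f u (g ^ (n + 1)) + e by
    induction n with
    | zero => simp
    | succ n ih => rw [step n, ih]; ring
  intro n
  induction n with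
  | zero => rw [zero_add, zero_add, pow_one, pow_two]; omega
  | succ n ih =>
    have hd : ∀ i j, dsp f u ((g ^ i)⁻¹ * g ^ (i + j)) = dsp f u (g ^ j) := fun i j => by
      rw [pow_add, inv_mul_cancel_left]
    have t : ∀ a b, H.dist (f a u) (f b u) + 2 * gp H (f (g ^ (n + 2)) u) (f a u) (f b u) =
        dsp f u ((g ^ (n + 2))⁻¹ * a) + dsp f u ((g ^ (n + 2))⁻¹ * b) := fun a b => by
      rw [← dist_dsp hT, ← dist_dsp hT f u _ b]
      exact (gp_spec hT _ _ _).2.2.2.2
    have r1 : dsp f u ((g ^ (n + 2))⁻¹ * g ^ (n + 1)) = dsp f u g := by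
      rw [show (g ^ (n + 2))⁻¹ * g ^ (n + 1) = g⁻¹ by rw [pow_succ g (n + 1)]; group, dsp_inv hT]
    have r2 : dsp f u ((g ^ (n + 2))⁻¹ * g ^ (n + 3)) = dsp f u g := by
      rw [hd (n + 2) 1, pow_one]
    have r0 : dsp f u ((g ^ (n + 2))⁻¹ * 1) = dsp f u (g ^ (n + 2)) := by rw [mul_one, dsp_inv hT]
    have X := t 1 (g ^ (n + 1))
    have Y := t (g ^ (n + 1)) (g ^ (n + 3))
    have Z := t 1 (g ^ (n + 3))
    rw [dist_dsp hT] at X Y Z
    rw [r0, r1, inv_one, one_mul] at X
    rw [r1, r2, show n + 3 = n + 1 + 2 by omega, hd (n + 1) 2, pow_two,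
      show n + 1 + 2 = n + 3 by omega] at Y
    rw [r0, r2, inv_one, one_mul] at Z
    have m1 := gp_min hT (f (g ^ (n + 2)) u) (f (g ^ (n + 1)) u) (f 1 u) (f (g ^ (n + 3)) u)
    have m2 := gp_min hT (f (g ^ (n + 2)) u) (f 1 u) (f (g ^ (n + 1)) u) (f (g ^ (n + 3)) u)
    rw [gp_comm hT _ (f (g ^ (n + 1)) u) (f 1 u)] at m1
    simp only [show n + 1 + 2 = n + 3 by omega, show n + 1 + 1 = n + 2 by omega] at *
    omega

theorem dsp_pow_le (g : Γ) (h : dsp f u (g * g) ≤ dsp f u g) :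
    ∀ n : ℕ, dsp f u (g ^ n) ≤ dsp f u g := by
  intro n
  induction n using Nat.strong_induction_on with
  | _ n ih =>
    match n with
    | 0 => rw [pow_zero, dsp_one f u]; exact Nat.zero_le _
    | 1 => rw [pow_one]
    | 2 => rwa [pow_two]
    | n + 3 =>
      have hd : ∀ i j, dsp f u ((g ^ i)⁻¹ * g ^ (i + j)) = dsp f u (g ^ j) := fun i j => by
        rw [pow_add, inv_mul_cancel_left]
      have fp := four_point hT (f (g ^ 0) u) (f (g ^ 1) u) (f (g ^ (n + 3)) u) (f (g ^ 2) u)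
      rw [SimpleGraph.dist_comm (u := f (g ^ (n + 3)) u)] at fp
      simp only [dist_dsp hT] at fp
      have q1 : (g ^ 1)⁻¹ * g ^ (n + 3) = g ^ (n + 2) := by
        rw [show n + 3 = 1 + (n + 2) by omega, pow_add, inv_mul_cancel_left]
      have q2 : (g ^ 2)⁻¹ * g ^ (n + 3) = g ^ (n + 1) := by
        rw [show n + 3 = 2 + (n + 1) by omega, pow_add, inv_mul_cancel_left]
      have q3 : (g ^ 1)⁻¹ * g ^ 2 = g := by rw [pow_one, pow_two, inv_mul_cancel_left]
      rw [q1, q2, q3, pow_zero, inv_one, one_mul, one_mul, one_mul, pow_one, pow_two] at fp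
      have h1 := ih (n + 1) (by omega)
      have h2 := ih (n + 2) (by omega)
      omega

theorem lox_iff (g : Γ) : Lox f g ↔ dsp f u g < dsp f u (g * g) := by
  refine ⟨fun h => h u, fun h v => ?_⟩
  by_contra hv
  have h1 := dsp_pow hT f u g h (dsp f v g + 2 * H.dist v u + 1)
  have h2 := dsp_pow_le hT f v g (not_lt.1 hv) (dsp f v g + 2 * H.dist v u + 1 + 1)
  have h3 := dsp_change hT f v u (g ^ (dsp f v g + 2 * H.dist v u + 1 + 1))
  have h4 := Nat.le_mul_of_pos_right (dsp f v g + 2 * H.dist v u + 1)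
    (show 0 < dsp f u (g * g) - dsp f u g by omega)
  omega

theorem le_dsp_pow {g : Γ} (h : Lox f g) (n : ℕ) : n ≤ dsp f u (g ^ n) := by
  rcases n with - | n
  · exact Nat.zero_le _
  rw [dsp_pow hT f u g (h u) n]
  have := h u
  have := dsp_mul_le hT f u g g
  have h4 := Nat.le_mul_of_pos_right n (show 0 < dsp f u (g * g) - dsp f u g by omega)
  omega

/-- Positions along the orbit of a loxodromic element share long segments. -/
theorem le_sh_pow {g : Γ} (h : Lox f g) (n : ℕ) :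
    ∀ m, n ≤ m → 2 * sh f u (g ^ n) (g ^ m) + dsp f u g ≥ 2 * dsp f u (g ^ n) := by
  intro m hm
  obtain ⟨j, rfl⟩ := Nat.exists_eq_add_of_le hm
  have e := sh_eq hT f u (g ^ n) (g ^ (n + j))
  rw [pow_add, inv_mul_cancel_left] at e
  rw [← pow_add] at e
  rcases n with - | n
  · rw [pow_zero, dsp_one f u]; omega
  rcases j with - | j
  · rw [Nat.add_zero, pow_zero, dsp_one] at e
    rw [Nat.add_zero]
    omega
  have a := dsp_pow hT f u g (h u) n
  have b := dsp_pow hT f u g (h u) j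
  have c := dsp_pow hT f u g (h u) (n + 1 + j)
  have := dsp_mul_le hT f u g g
  have := h u
  rw [show n + 1 + j + 1 = n + 1 + (j + 1) by omega] at c
  rw [Nat.add_mul, Nat.add_mul, Nat.one_mul] at c
  omega

theorem same_refl {g : Γ} (h : Lox f g) : Same f u g g := fun R => ⟨R + dsp f u g, fun n hn m hm => by
  have key : ∀ i j, R + dsp f u g ≤ i → i ≤ j → R ≤ sh f u (g ^ i) (g ^ j) := fun i j hi hij => by
    have := le_sh_pow hT f u h i j hij
    have := le_dsp_pow hT f u h i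
    omega
  rcases le_total n m with h' | h'
  · exact key n m hn h'
  · rw [sh_comm hT]; exact key m n hm h'⟩

theorem same_symm {g h : Γ} (s : Same f u g h) : Same f u h g := fun R => by
  obtain ⟨N, hN⟩ := s R
  exact ⟨N, fun n hn m hm => by rw [sh_comm hT]; exact hN m hm n hn⟩

theorem same_trans {g h k : Γ} (s : Same f u g h) (s' : Same f u h k) : Same f u g k := fun R => by
  obtain ⟨N, hN⟩ := s R
  obtain ⟨N', hN'⟩ := s' R
  refine ⟨max N N', fun n hn m hm => ?_⟩
  have h1 := hN n (by omega) (max N N') (by omega)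
  have h2 := hN' (max N N') (by omega) m (by omega)
  exact (le_min h1 h2).trans (sh_min hT f u _ _ _)

/-- Either the same end, or a bounded common part. -/
theorem same_or_bounded {g h : Γ} (hg : Lox f g) (hh : Lox f h) :
    Same f u g h ∨ ∃ R : ℕ, ∀ n m, sh f u (g ^ n) (h ^ m) ≤ R := by
  refine or_iff_not_imp_right.2 fun hb R => ?_
  push Not at hb
  obtain ⟨n, m, hnm⟩ := hb (R + dsp f u g + dsp f u h)
  obtain ⟨g1, g2, -⟩ := gp_spec hT u (f (g ^ n) u) (f (h ^ m) u)
  refine ⟨max n m, fun n' hn' m' hm' => ?_⟩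
  have a := le_sh_pow hT f u hg n n' (by omega)
  have b := le_sh_pow hT f u hh m m' (by omega)
  have c := sh_min hT f u (g ^ n') (g ^ n) (h ^ m)
  have d := sh_min hT f u (g ^ n') (h ^ m) (h ^ m')
  rw [sh_comm hT f u (g ^ n') (g ^ n)] at c
  have e1 : sh f u (g ^ n) (h ^ m) ≤ dsp f u (g ^ n) := g1
  have e2 : sh f u (g ^ n) (h ^ m) ≤ dsp f u (h ^ m) := g2
  omega

theorem not_same_inv {g : Γ} (h : Lox f g) : ¬Same f u g g⁻¹ := fun s => by
  obtain ⟨N, hN⟩ := s (dsp f u g + 1)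
  have h1 := hN (N + 1) (by omega) (N + 1) (by omega)
  have e := sh_eq hT f u (g ^ (N + 1)) (g⁻¹ ^ (N + 1))
  rw [inv_pow, dsp_inv hT, ← mul_inv_rev, ← pow_add, dsp_inv hT] at e
  rw [inv_pow] at h1
  have a := dsp_pow hT f u g (h u) N
  have b := dsp_pow hT f u g (h u) (N + 1 + N)
  rw [show N + 1 + N + 1 = N + 1 + (N + 1) by omega, Nat.add_mul, Nat.add_mul, Nat.one_mul] at b
  omega

theorem lox_conj {g : Γ} (h : Lox f g) (x : Γ) : Lox f (x * g * x⁻¹) := fun v => by
  have e : ∀ y, dsp f (f x v) (x * y * x⁻¹) = dsp f v y := fun y => by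
    rw [dsp, ← f_mul, inv_mul_cancel_right, f_mul, dist_f hT]
    rfl
  refine (lox_iff hT f (f x v) _).2 ?_ v
  rw [show x * g * x⁻¹ * (x * g * x⁻¹) = x * (g * g) * x⁻¹ by group, e, e]
  exact h v

theorem lox_inv {g : Γ} (h : Lox f g) : Lox f g⁻¹ := fun v => by
  rw [← mul_inv_rev, dsp_inv hT, dsp_inv hT]; exact h v

theorem lox_pow {g : Γ} (h : Lox f g) {k : ℕ} (hk : 1 ≤ k) : Lox f (g ^ k) := fun v => by
  obtain ⟨j, rfl⟩ := Nat.exists_eq_add_of_le' hk
  rw [← pow_add, show j + 1 + (j + 1) = j + 1 + j + 1 by omega, dsp_pow hT f v g (h v),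
    dsp_pow hT f v g (h v), Nat.add_mul (j + 1) j]
  have := h v
  have h4 := Nat.le_mul_of_pos_right (j + 1) (show 0 < dsp f v (g * g) - dsp f v g by omega)
  omega

theorem same_pow {g : Γ} (h : Lox f g) {k : ℕ} (hk : 1 ≤ k) : Same f u (g ^ k) g := fun R => by
  obtain ⟨N, hN⟩ := same_refl hT f u h R
  refine ⟨N, fun n hn m hm => ?_⟩
  rw [← pow_mul]
  exact hN _ (hn.trans (Nat.le_mul_of_pos_left _ hk)) _ hm

/-- Conjugation respects ends. -/
theorem same_conj {g h : Γ} (hg : Lox f g) (hh : Lox f h) (s : Same f u g h) (x : Γ) :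
    Same f u (x * g * x⁻¹) (x * h * x⁻¹) := fun R => by
  obtain ⟨N, hN⟩ := s (R + dsp f u x)
  refine ⟨N + R + 2 * dsp f u x, fun n hn m hm => ?_⟩
  rw [conj_pow, conj_pow]
  have key : ∀ a : Γ, Lox f a → ∀ i, R + 2 * dsp f u x ≤ i →
      R ≤ sh f u (x * a ^ i * x⁻¹) (x * a ^ i) := fun a ha i hi => by
    have h1 := sh_mul_right hT f u (x * a ^ i) x⁻¹
    rw [dsp_inv hT] at h1
    have h2 := dsp_mul_le hT f u x⁻¹ (x * a ^ i)
    rw [inv_mul_cancel_left, dsp_inv hT] at h2
    have := le_dsp_pow hT f u ha i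
    omega
  have a := key g hg n (by omega)
  have b := key h hh m (by omega)
  have c := sh_mul_left hT f u x (g ^ n) (h ^ m)
  have := hN n (by omega) m (by omega)
  have d := sh_min hT f u (x * g ^ n * x⁻¹) (x * g ^ n) (x * h ^ m)
  have e := sh_min hT f u (x * g ^ n * x⁻¹) (x * h ^ m) (x * h ^ m * x⁻¹)
  rw [sh_comm hT f u (x * h ^ m) (x * h ^ m * x⁻¹)] at e
  omega

/-- An element preserving an end of `a` has that end or the opposite one as its forward end. -/
theorem same_of_fix {y a : Γ} (hy : Lox f y) (ha : Lox f a)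
    (hfix : ∀ k : ℕ, Same f u (y ^ k * a * (y ^ k)⁻¹) a) : Same f u y a ∨ Same f u y⁻¹ a := by
  rcases same_or_bounded hT f u hy ha with h | ⟨R1, h1⟩
  · exact Or.inl h
  rcases same_or_bounded hT f u (lox_inv hT f hy) ha with h | ⟨R2, h2⟩
  · exact Or.inr h
  exfalso
  set k := 2 * (R1 + R2) + 1 with hk
  set z := y ^ k with hz
  have hz' : k ≤ dsp f u z := le_dsp_pow hT f u hy k
  obtain ⟨N, hN⟩ := hfix k (dsp f u z)
  set n := N + 3 * dsp f u z + R1 + R2
  have s1 := hN n (by omega) n (by omega)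
  rw [conj_pow, ← hz] at s1
  have s2 := sh_mul_right hT f u (z * a ^ n) z⁻¹
  rw [dsp_inv hT] at s2
  have s3 := dsp_mul_le hT f u z⁻¹ (z * a ^ n)
  rw [inv_mul_cancel_left, dsp_inv hT] at s3
  have hn := le_dsp_pow hT f u ha n
  have e1 := sh_eq hT f u z (z * a ^ n)
  rw [inv_mul_cancel_left] at e1
  have e2 := sh_eq hT f u z⁻¹ (a ^ n)
  rw [inv_inv, dsp_inv hT] at e2
  have b1 := h1 k n
  have b2 := h2 k n
  rw [inv_pow, ← hz] at b2
  rw [← hz] at b1
  have m1 := sh_min hT f u z (z * a ^ n) (z * a ^ n * z⁻¹)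
  have m2 := sh_min hT f u z (z * a ^ n * z⁻¹) (a ^ n)
  rw [sh_comm hT f u (z * a ^ n) (z * a ^ n * z⁻¹)] at m1
  omega

/-- A non-loxodromic element has a power of two fixing a vertex. -/
theorem exists_fixed (u : V) {h : Γ} (hh : ¬Lox f h) : ∃ p, f (h * h) p = p := by
  rw [lox_iff hT f u] at hh
  set G := dsp f u h with hG
  have e := (gp_spec hT (f h u) (f 1 u) (f (h * h) u))
  obtain ⟨-, -, e3, -, e5⟩ := e
  rw [dist_dsp hT, dist_dsp hT, dist_dsp hT, inv_one, one_mul, mul_one, dsp_inv hT,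
    inv_mul_cancel_left] at e5
  rw [f_one] at e3 e5
  set k := G / 2 with hk
  have hp : ∀ i, f h (pt H u (f h u) i) = pt H (f h u) (f (h * h) u) i := fun i => by
    rw [f_mul]; exact (pt_map hT hT (f h) _ _ i).symm
  have r : ∀ i ≤ G - k, pt H (f h u) (f (h * h) u) i = pt H u (f h u) (G - i) := fun i hi => by
    rw [← e3 i (by omega), pt_rev hT, hG, dsp]
  refine ⟨pt H u (f h u) k, ?_⟩
  rw [f_mul, hp, r k (by omega), hp, r (G - k) le_rfl]
  congr 1
  omega

end

end Vale.Agent.P165.SG
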