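import Vale.Agent.P165.SG.Setup
import Vale.Agent.P165.SG.Ends

/-!
# Markers for finitely many actions of general type

Some element is loxodromic in every tree; conjugates of it have pairwise distinct ends in every
tree, by Neumann's covering lemma. A marker is a high power of one of them conjugated by a high
power of another.
-/

namespace Vale.Agent.P165.SG

open Finset TL
open scoped Pointwise

namespace PAct

variable {κ Γ : Type} [Group Γ] (D : PAct κ Γ)

/-- Finitely many conditions of the form: the conjugate misses this end, can be met at once. -/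
theorem exists_conj (hgt : D.General) (S : Finset (κ × Γ × Γ))
    (hS : ∀ q ∈ S, Lox (D.φ q.1) q.2.1) :
    ∃ x : Γ, ∀ q ∈ S, ¬Same (D.φ q.1) (D.o q.1) (x * q.2.1 * x⁻¹) q.2.2 := by
  classical
  by_contra hno
  push Not at hno
  set S' := S.filter fun q => ∃ x, Same (D.φ q.1) (D.o q.1) (x * q.2.1 * x⁻¹) q.2.2
  let K : S' → Subgroup Γ := fun q =>
    endStab (D.tree _) (D.φ q.1.1) (D.o q.1.1) (hS q.1 (mem_filter.1 q.2).1)
  let x0 : S' → Γ := fun q => (mem_filter.1 q.2).2.choose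
  have hcov : ⋃ i ∈ (univ : Finset S'), x0 i • (K i : Set Γ) = Set.univ := by
    refine Set.eq_univ_of_forall fun x => ?_
    obtain ⟨q, hq, hsame⟩ := hno x
    set i : S' := ⟨q, mem_filter.2 ⟨hq, x, hsame⟩⟩
    have h0 : Same (D.φ q.1) (D.o q.1) (x0 i * q.2.1 * (x0 i)⁻¹) q.2.2 :=
      (mem_filter.1 i.2).2.choose_spec
    refine Set.mem_iUnion₂.2 ⟨i, mem_univ _, mem_leftCoset_iff _ |>.2 ?_⟩
    have hT := D.tree q.1
    have h1 := same_trans hT _ _ hsame (same_symm hT _ _ h0)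
    have h2 := same_conj hT _ _ (lox_conj hT _ (hS q hq) x) (lox_conj hT _ (hS q hq) (x0 i)) h1
      (x0 i)⁻¹
    have e1 : (x0 i)⁻¹ * (x * q.2.1 * x⁻¹) * (x0 i)⁻¹⁻¹ =
        (x0 i)⁻¹ * x * q.2.1 * ((x0 i)⁻¹ * x)⁻¹ := by group
    have e2 : (x0 i)⁻¹ * (x0 i * q.2.1 * (x0 i)⁻¹) * (x0 i)⁻¹⁻¹ = q.2.1 := by group
    rw [e1, e2] at h2
    exact h2
  obtain ⟨i, -, hi⟩ := Subgroup.exists_finiteIndex_of_leftCoset_cover hcov
  exact endStab_index (D.tree _) _ _ (hS i.1 (mem_filter.1 i.2).1) (hgt _) hi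

/-- Some element is loxodromic in every tree. -/
theorem exists_lox_all (hgt : D.General) (T : Finset κ) : ∃ g : Γ, ∀ t ∈ T, Lox (D.φ t) g := by
  classical
  induction T using Finset.induction_on with
  | empty => exact ⟨1, fun t h => absurd h (notMem_empty t)⟩
  | @insert j T hj ih =>
    obtain ⟨g, hg⟩ := ih
    obtain ⟨h, h', hh, -, -, -, -, -⟩ := hgt j
    set S := ((insert j T).filter fun t => Lox (D.φ t) g ∧ Lox (D.φ t) h).biUnion fun t =>
      ({(t, h, g), (t, h, g⁻¹), (t, h⁻¹, g), (t, h⁻¹, g⁻¹)} : Finset (κ × Γ × Γ))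
    have hS : ∀ q ∈ S, Lox (D.φ q.1) q.2.1 := fun q hq => by
      obtain ⟨t, ht, hq⟩ := mem_biUnion.1 hq
      obtain ⟨-, -, hth⟩ := mem_filter.1 ht
      simp only [mem_insert, mem_singleton] at hq
      rcases hq with rfl | rfl | rfl | rfl <;>
        first | exact hth | exact lox_inv (D.tree t) _ hth
    obtain ⟨x, hx⟩ := D.exists_conj hgt S hS
    set h1 := x * h * x⁻¹ with hh1
    set G := g * g
    set K := h1 * h1
    have step : ∀ t ∈ insert j T, ∃ L B : ℕ, 1 ≤ L ∧
        ∀ n ≥ B, L ∣ n → Lox (D.φ t) (G ^ n * K ^ n) := by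
      intro t ht
      have hT := D.tree t
      have sq : ∀ a, Lox (D.φ t) a → Lox (D.φ t) (a * a) := fun a ha => by
        rw [← pow_two]; exact lox_pow hT _ ha (show 1 ≤ 2 by norm_num)
      by_cases cg : Lox (D.φ t) g <;> by_cases ch : Lox (D.φ t) h1
      · have ch0 : Lox (D.φ t) h := by
          have := lox_conj hT _ ch x⁻¹
          rwa [hh1, show x⁻¹ * (x * h * x⁻¹) * x⁻¹⁻¹ = h by group] at this
        have hmem : ∀ q ∈ ({(t, h, g), (t, h, g⁻¹), (t, h⁻¹, g), (t, h⁻¹, g⁻¹)} :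
            Finset (κ × Γ × Γ)), q ∈ S := fun q hq =>
          mem_biUnion.2 ⟨t, mem_filter.2 ⟨ht, cg, ch0⟩, hq⟩
        have n2 : ¬Same (D.φ t) (D.o t) (x * h * x⁻¹) g⁻¹ := hx _ (hmem (t, h, g⁻¹) (by simp))
        have n3 : ¬Same (D.φ t) (D.o t) (x * h⁻¹ * x⁻¹) g := hx _ (hmem (t, h⁻¹, g) (by simp))
        rw [show x * h⁻¹ * x⁻¹ = h1⁻¹ by rw [hh1]; group] at n3
        obtain ⟨B, hB⟩ := lox_mul_lox hT (D.φ t) (D.o t) cg ch
          (fun h' => n2 (same_symm hT _ _ h')) (fun h' => n3 (same_symm hT _ _ h'))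
        refine ⟨1, B, le_rfl, fun n hn _ => ?_⟩
        rw [show G = g ^ 2 from (pow_two g).symm, show K = h1 ^ 2 from (pow_two h1).symm,
          ← pow_mul, ← pow_mul]
        exact hB _ (by omega)
      · obtain ⟨p, hp⟩ := exists_fixed hT (D.φ t) (D.o t) ch
        exact lox_mul_elliptic hT (D.φ t) (sq g cg) hp
      · obtain ⟨p, hp⟩ := exists_fixed hT (D.φ t) (D.o t) cg
        obtain ⟨L, B, hL, hB⟩ := lox_mul_elliptic hT (D.φ t) (sq h1 ch) hp
        refine ⟨L, B, hL, fun n hn hd => ?_⟩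
        have := lox_conj hT _ (hB n hn hd) (G ^ n)
        rwa [show G ^ n * (K ^ n * G ^ n) * (G ^ n)⁻¹ = G ^ n * K ^ n by group] at this
      · rcases mem_insert.1 ht with rfl | ht'
        · exact absurd (lox_conj hT _ hh x) ch
        · exact absurd (hg t ht') cg
    choose! L B hL hLB using step
    refine ⟨G ^ ((∏ t ∈ insert j T, L t) * ((∑ t ∈ insert j T, B t) + 1)) *
      K ^ ((∏ t ∈ insert j T, L t) * ((∑ t ∈ insert j T, B t) + 1)), fun t ht => hLB t ht _ ?_ ?_⟩
    · refine le_trans ?_ (Nat.le_mul_of_pos_left _ (prod_pos fun s hs => hL s hs))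
      exact (single_le_sum (f := B) (fun _ _ => Nat.zero_le _) ht).trans (Nat.le_succ _)
    · exact (dvd_prod_of_mem L ht).mul_right _

variable [Fintype κ]

/-- The signed element. -/
def signed (g : Γ) (b : Bool) : Γ := if b then g else g⁻¹

/-- Conjugates with pairwise distinct ends. -/
theorem exists_family (hgt : D.General) (M : ℕ) :
    ∃ g : ℕ → Γ, (∀ i t, Lox (D.φ t) (g i)) ∧ ∀ i < M, ∀ j < M, ∀ b b' t,
      Same (D.φ t) (D.o t) (signed (g i) b) (signed (g j) b') → i = j ∧ b = b' := by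
  classical
  obtain ⟨a, ha⟩ := D.exists_lox_all hgt univ
  have haa : ∀ b t, Lox (D.φ t) (signed a b) := fun b t => by
    cases b
    · exact lox_inv (D.tree t) _ (ha t (mem_univ t))
    · exact ha t (mem_univ t)
  induction M with
  | zero => exact ⟨fun _ => a, fun _ t => ha t (mem_univ t), fun i hi => absurd hi (Nat.not_lt_zero i)⟩
  | succ M ih =>
    obtain ⟨g, hg, hd⟩ := ih
    set S : Finset (κ × Γ × Γ) :=
      ((univ : Finset κ) ×ˢ ((univ : Finset Bool) ×ˢ ((univ : Finset Bool) ×ˢ range M))).image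
        fun q => (q.1, signed a q.2.1, signed (g q.2.2.2) q.2.2.1)
    obtain ⟨x, hx⟩ := D.exists_conj hgt S fun q hq => by
      obtain ⟨q, -, rfl⟩ := mem_image.1 hq
      exact haa _ _
    have sconj : ∀ b, signed (x * a * x⁻¹) b = x * signed a b * x⁻¹ := fun b => by
      cases b <;> simp [signed, mul_assoc]
    have hnew : ∀ i < M, ∀ b b' t,
        ¬Same (D.φ t) (D.o t) (signed (x * a * x⁻¹) b) (signed (g i) b') := fun i hi b b' t h => by
      rw [sconj] at h
      exact hx _ (mem_image.2 ⟨(t, b, b', i), by simp [hi], rfl⟩) h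
    refine ⟨fun i => if i < M then g i else x * a * x⁻¹, fun i t => ?_,
      fun i hi j hj b b' t h => ?_⟩
    · beta_reduce
      split_ifs
      · exact hg i t
      · exact lox_conj (D.tree t) _ (ha t (mem_univ t)) x
    · beta_reduce at h
      by_cases hi' : i < M <;> by_cases hj' : j < M
      · rw [if_pos hi', if_pos hj'] at h
        exact hd i hi' j hj' b b' t h
      · rw [if_pos hi', if_neg hj'] at h
        exact absurd (same_symm (D.tree t) _ _ h) (hnew i hi' b' b t)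
      · rw [if_neg hi', if_pos hj'] at h
        exact absurd h (hnew j hj' b b' t)
      · rw [if_neg hi', if_neg hj'] at h
        refine ⟨by omega, ?_⟩
        have hl := lox_conj (D.tree t) _ (ha t (mem_univ t)) x
        cases b <;> cases b' <;> simp only [signed, Bool.false_eq_true, ite_true, ite_false] at h
        · rfl
        · exact absurd (same_symm (D.tree t) _ _ h) (not_same_inv (D.tree t) _ _ hl)
        · exact absurd h (not_same_inv (D.tree t) _ _ hl)
        · rfl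

/-- Finitely many markers exist. -/
theorem exists_markers [DecidableEq Γ] (hgt : D.General) :
    ∃ (C : Finset Γ) (D₀ P : ℕ), D.IsMarkers C D₀ P := by
  classical
  set m := Fintype.card κ with hm
  set M := 3 * m + 2
  obtain ⟨g, hg, hd⟩ := D.exists_family hgt M
  have hs : ∀ i b t, Lox (D.φ t) (signed (g i) b) := fun i b t => by
    cases b
    · exact lox_inv (D.tree t) _ (hg i t)
    · exact hg i t
  set I := ((range M ×ˢ (univ : Finset Bool)) ×ˢ (range M ×ˢ (univ : Finset Bool))) ×ˢ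
    (univ : Finset κ)
  have hbd : ∀ q ∈ I, ∃ R : ℕ, q.1.1 ≠ q.1.2 → ∀ n k,
      sh (D.φ q.2) (D.o q.2) (signed (g q.1.1.1) q.1.1.2 ^ n) (signed (g q.1.2.1) q.1.2.2 ^ k)
        ≤ R := by
    intro q hq
    by_cases hne : q.1.1 = q.1.2
    · exact ⟨0, fun h => absurd hne h⟩
    rcases same_or_bounded (D.tree q.2) (D.φ q.2) (D.o q.2) (hs q.1.1.1 q.1.1.2 q.2)
      (hs q.1.2.1 q.1.2.2 q.2) with h | ⟨R, hR⟩
    · simp only [I, mem_product, mem_range] at hq
      obtain ⟨h1, h2⟩ := hd _ hq.1.1.1 _ hq.1.2.1 _ _ _ h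
      exact absurd (Prod.ext h1 h2) hne
    · exact ⟨R, fun _ => hR⟩
  choose! Rf hRf using hbd
  set R := ∑ q ∈ I, Rf q
  have hR : ∀ i < M, ∀ j < M, ∀ b b' t, i ≠ j → ∀ n k,
      sh (D.φ t) (D.o t) (signed (g i) b ^ n) (signed (g j) b' ^ k) ≤ R := by
    intro i hi j hj b b' t hne n k
    have hq : (((i, b), (j, b')), t) ∈ I := by simp [I, hi, hj]
    exact (hRf _ hq (fun e => hne (Prod.ext_iff.1 e).1) n k).trans
      (single_le_sum (f := Rf) (fun _ _ => Nat.zero_le _) hq)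
  set P := 400 * (R + 1) with hP
  set N := P + 3 * R + 1 with hN
  refine ⟨((range M ×ˢ range M).filter fun q => q.1 ≠ q.2).image
    (fun q => g q.1 ^ N * g q.2 ^ N * (g q.1 ^ N)⁻¹), R + 1, P, by omega, le_rfl,
    fun a a' b => ?_⟩
  -- the powers that enter one of the forbidden branches
  set bad : (∀ t, D.V t) → κ → Finset ℕ := fun z t => (range M).filter fun i =>
    R < gp (D.H t) (D.o t) (D.at' (g i ^ N) t) (z t) with hbad
  have hone : ∀ z t, (bad z t).card ≤ 1 := fun z t => card_le_one.2 fun i hi j hj => by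
    simp only [hbad, mem_filter, mem_range] at hi hj
    by_contra hne
    have h : sh (D.φ t) (D.o t) (g i ^ N) (g j ^ N) ≤ R :=
      hR i hi.1 j hj.1 true true t hne N N
    have h' := gp_min (D.tree t) (D.o t) (D.at' (g i ^ N) t) (z t) (D.at' (g j ^ N) t)
    rw [gp_comm (D.tree t) _ (z t) (D.at' (g j ^ N) t)] at h'
    change gp (D.H t) (D.o t) (D.at' (g i ^ N) t) (D.at' (g j ^ N) t) ≤ R at h
    omega
  set Bad := (univ : Finset κ).biUnion fun t => bad a t ∪ bad a' t ∪ bad b t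
  have hcard : Bad.card ≤ 3 * m := by
    refine card_biUnion_le.trans ((sum_le_card_nsmul _ _ 3 fun t _ => ?_).trans (le_of_eq ?_))
    · have := card_union_le (bad a t ∪ bad a' t) (bad b t)
      have := card_union_le (bad a t) (bad a' t)
      have := hone a t; have := hone a' t; have := hone b t
      omega
    · rw [smul_eq_mul, card_univ, mul_comm]
  obtain ⟨i, hiM, hiB⟩ := exists_mem_notMem_of_card_lt_card
    (show Bad.card < (range M).card by rw [card_range]; omega)
  rw [mem_range] at hiM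
  obtain ⟨j, hjM, hij⟩ : ∃ j < M, i ≠ j := by
    rcases Nat.eq_zero_or_pos i with h | h
    · exact ⟨1, by omega, by omega⟩
    · exact ⟨0, by omega, by omega⟩
  set c := g i ^ N * g j ^ N * (g i ^ N)⁻¹ with hc
  refine ⟨c, mem_image.2 ⟨(i, j), mem_filter.2 ⟨by simp [hiM, hjM], hij⟩, rfl⟩, fun t => ?_⟩
  have hT := D.tree t
  have hbz : ∀ z, i ∉ bad z t → gp (D.H t) (D.o t) (D.at' (g i ^ N) t) (z t) ≤ R := fun z hz => by
    simp only [hbad, mem_filter, mem_range, not_and, not_lt] at hz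
    exact hz hiM
  have na := hbz a fun h => hiB (mem_biUnion.2 ⟨t, mem_univ t, by simp [h]⟩)
  have na' := hbz a' fun h => hiB (mem_biUnion.2 ⟨t, mem_univ t, by simp [h]⟩)
  have nb := hbz b fun h => hiB (mem_biUnion.2 ⟨t, mem_univ t, by simp [h]⟩)
  set f := D.φ t
  set u := D.o t
  set π := g i ^ N with hπ
  have hpi : N ≤ dsp f u π := le_dsp_pow hT f u (hg i t) N
  have arm : ∀ k : Γ, N ≤ dsp f u k → sh f u π⁻¹ k ≤ R → sh f u π⁻¹ k⁻¹ ≤ R →
      2 * dsp f u π + dsp f u k ≤ dsp f u (π * k * π⁻¹) + 4 * R ∧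
        dsp f u π ≤ sh f u (π * k * π⁻¹) π + R := by
    intro k hk h1 h2
    have e1 := sh_eq hT f u k⁻¹ π⁻¹
    rw [inv_inv, dsp_inv hT, dsp_inv hT, sh_comm hT f u k⁻¹] at e1
    have e2 := sh_eq hT f u (k * π⁻¹) k
    rw [show (k * π⁻¹)⁻¹ * k = π by group] at e2
    have m1 := sh_min hT f u π⁻¹ (k * π⁻¹) k
    have e3 := sh_eq hT f u π⁻¹ (k * π⁻¹)
    rw [inv_inv, dsp_inv hT, ← mul_assoc] at e3
    have e4 := sh_eq hT f u (π * k * π⁻¹) π
    rw [show (π * k * π⁻¹)⁻¹ * π = (k * π⁻¹)⁻¹ by group, dsp_inv hT] at e4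
    omega
  have hk1 : sh f u π⁻¹ (g j ^ N) ≤ R := by
    have := hR i hiM j hjM false true t hij N N
    simpa [signed, hπ, inv_pow] using this
  have hk2 : sh f u π⁻¹ (g j ^ N)⁻¹ ≤ R := by
    have := hR i hiM j hjM false false t hij N N
    simpa [signed, hπ, inv_pow] using this
  have hkN := le_dsp_pow hT f u (hg j t) N
  obtain ⟨c1, c2⟩ := arm (g j ^ N) hkN hk1 hk2
  obtain ⟨-, c4⟩ := arm (g j ^ N)⁻¹ (by rwa [dsp_inv hT]) hk2 (by rwa [inv_inv])
  have hci : π * (g j ^ N)⁻¹ * π⁻¹ = c⁻¹ := by rw [hc]; group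
  rw [← hc] at c1 c2
  rw [hci] at c4
  have hlox : Lox f c := lox_conj hT _ (lox_pow hT _ (hg j t) (by omega)) _
  have key : ∀ z w : D.V t, gp (D.H t) u w (f π u) ≥ dsp f u π - R →
      gp (D.H t) u (f π u) z ≤ R → gp (D.H t) u w z ≤ R + 1 := fun z w hw hz => by
    have := gp_min hT u (f π u) w z
    rw [gp_comm hT u (f π u) w] at this
    omega
  have w1 : gp (D.H t) u (f c u) (f π u) ≥ dsp f u π - R := by
    change dsp f u π - R ≤ sh f u c π; omega
  have w2 : gp (D.H t) u (f c⁻¹ u) (f π u) ≥ dsp f u π - R := by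
    change dsp f u π - R ≤ sh f u c⁻¹ π; omega
  have m3 := gp_min hT u (f c u) (f π u) (f c⁻¹ u)
  rw [gp_comm hT u (f π u) (f c⁻¹ u)] at m3
  refine ⟨hlox, ?_, ?_, key _ _ w1 na, key _ _ w1 na', key _ _ w2 nb⟩
  · show P ≤ gp (D.H t) u (f c u) (f c⁻¹ u)
    omega
  · show 2 * P + 1 ≤ dsp f u c
    omega

end PAct

end Vale.Agent.P165.SG
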