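import Vale.Agent.P165.FF.Transport
import Vale.Agent.P165.FF.Unique
import Vale.Agent.P165.FF.Main
import Vale.Agent.P165.TL.Main
import Vale.Agent.P165.SG.Recursion
import Vale.Agent.P165.SG.Markers
import Vale.Agent.P165.SG.Kernel

/-!
# Groups acting properly on finitely many trees: nonuniqueness
-/

namespace Vale.Agent.P165.SG

open Finset MeasureTheory ProbabilityTheory FF TL

namespace PAct

variable {κ Γ : Type} [Group Γ]

/-- A group with a loxodromic element is infinite. -/
theorem infinite_group (D : PAct κ Γ) (hgt : D.General) [Nonempty κ] : Infinite Γ := by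
  by_contra hfin
  rw [not_infinite_iff_finite] at hfin
  have := Fintype.ofFinite Γ
  obtain ⟨t⟩ := ‹Nonempty κ›
  obtain ⟨g, -, hg, -⟩ := hgt t
  set N := ∑ x : Γ, dsp (D.φ t) (D.o t) x
  have h1 := le_dsp_pow (D.tree t) (D.φ t) (D.o t) hg (N + 1)
  have h2 : dsp (D.φ t) (D.o t) (g ^ (N + 1)) ≤ N :=
    single_le_sum (f := fun x => dsp (D.φ t) (D.o t) x) (fun _ _ => Nat.zero_le _) (mem_univ _)
  omega

variable [Fintype κ] [DecidableEq Γ] {O ι : Type} [DecidableEq O] [Fintype O] [Fintype ι]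
  {G : SimpleGraph (Γ × O)} {nb : Γ × O → ι → Γ × O}

omit [DecidableEq Γ] [DecidableEq O] in
/-- Edges have bounded displacement. -/
theorem exists_len_step (D : PAct κ Γ) (hl : Labelling G nb) (hinv : Inv G) :
    ∃ L : ℕ, 1 ≤ L ∧ ∀ x y : Γ × O, G.Adj x y → ∀ t, D.len t (x.1⁻¹ * y.1) ≤ L := by
  refine ⟨1 + ∑ o : O, ∑ j : ι, ∑ t, D.len t (nb (1, o) j).1, by omega, fun x y h t => ?_⟩
  have h' := (hinv x.1⁻¹ x y).2 h
  have e : tr x.1⁻¹ x = ((1 : Γ), x.2) := by simp [tr]
  rw [e] at h'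
  obtain ⟨j, hj⟩ := (hl.adj _ _).1 h'
  have e2 : (nb (1, x.2) j).1 = x.1⁻¹ * y.1 := by rw [hj]; rfl
  rw [← e2]
  have h1 := single_le_sum (f := fun t => D.len t (nb (1, x.2) j).1) (fun _ _ => Nat.zero_le _)
    (mem_univ t)
  have h2 := single_le_sum (f := fun j => ∑ t, D.len t (nb (1, x.2) j).1) (fun _ _ => Nat.zero_le _)
    (mem_univ j)
  have h3 := single_le_sum (f := fun o => ∑ j, ∑ t, D.len t (nb (1, o) j).1)
    (fun _ _ => Nat.zero_le _) (mem_univ x.2)
  omega

theorem continuous_kernelB (D : PAct κ Γ) (n : ℕ) (g : Γ) :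
    Continuous fun p : ℝ => D.kernelB nb n p g := by
  refine continuous_id.mul (continuous_finsetSum _ fun o _ => continuous_finsetSum _ fun a _ =>
    continuous_finsetSum _ fun j _ => ?_)
  split_ifs
  · exact tauIn_continuous _ _ _
  · exact continuous_const

/-- A connected invariant regular graph on finitely many copies of a group acting freely and
cofinitely on a product of trees has a nonuniqueness phase. -/
theorem pc_lt_pu_invariant (D : PAct κ Γ) (hgt : D.General) {c0 : ℝ} {e : ℕ} (hH0 : D.Haag c0 e)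
    (hl : Labelling G nb) (hinv : Inv G) (hc : G.Connected) [Nonempty κ] [Nonempty O] :
    pc G < pu G := by
  classical
  set cH : ℝ := max c0 0 with hcH
  have hH : D.Haag cH e := fun R A B hA f h out => (hH0 R A B hA f h out).trans
    (mul_le_mul_of_nonneg_right (mul_le_mul_of_nonneg_right
      (mul_le_mul_of_nonneg_right (le_max_left _ _) (by positivity))
      (sum_nonneg fun _ _ => sq_nonneg _)) (sum_nonneg fun _ _ => sq_nonneg _))
  have : Infinite Γ := D.infinite_group hgt
  have hinf : Infinite (Γ × O) := Prod.infinite_of_left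
  have : Countable (Γ × O) := countable_of_connected hl.listing hc
  obtain ⟨L, hL1, hL⟩ := D.exists_len_step hl hinv
  obtain ⟨C, D₀, P, hC⟩ := D.exists_markers hgt
  set p0 : ℝ := 1 / ((Fintype.card ι : ℝ) + 1) with hp0
  have hp0pos : 0 < p0 := by positivity
  have hp01 : p0 ≤ 1 := by
    rw [hp0, div_le_one (by positivity)]; linarith [Nat.cast_nonneg (α := ℝ) (Fintype.card ι)]
  obtain ⟨n, hn⟩ := D.kernel_small hl hinv hc hC hL1 hL hp0pos hp01 cH (le_max_right _ _) e
  set f : ℝ → ℝ := fun p => cH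
    * ((n : ℝ) + L + 1) ^ e * ∑ g ∈ D.ball (n + L), D.kernelB nb n p g ^ 2 with hf
  have hfc : Continuous f :=
    continuous_const.mul (continuous_finsetSum _ fun g _ => (continuous_kernelB D n g).pow 2)
  set W : Set ℝ := {p | 0 ≤ p ∧ p ≤ 1 ∧ Witness nb p} with hW
  set ps : ℝ := sSup W with hps
  have hbdd : BddAbove W := ⟨1, fun p hp => hp.2.1⟩
  have hmem0 : p0 ∈ W := by
    refine ⟨hp0pos.le, hp01, witness_small hp0pos.le hp01 ?_⟩
    rw [hp0, div_mul_eq_mul_div, one_mul, div_lt_one (by positivity)]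
    linarith
  have hp0ps : p0 ≤ ps := le_csSup hbdd hmem0
  have hps1 : ps ≤ 1 := csSup_le ⟨p0, hmem0⟩ fun p hp => hp.2.1
  have hsub : ∀ p, p0 ≤ p → Witness nb p → p ≤ 1 → f p ≤ 1 / 8 := fun p hp hw hp1 => by
    obtain ⟨X, hX⟩ := susceptibility hl hinv (hp0pos.le.trans hp) hp1 hw
    exact hn p hp hp1 ⟨X, fun S F x => hX S F x⟩
  have hlow : ∀ p, p0 ≤ p → p < ps → f p ≤ 1 / 8 := fun p hp hlt => by
    obtain ⟨q, hq, hpq⟩ := exists_lt_of_lt_csSup ⟨p0, hmem0⟩ hlt
    exact hsub p hp (witness_mono (hp0pos.le.trans hp) hpq.le hq.2.1 hq.2.2)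
      (hpq.le.trans hq.2.1)
  have hfps : f ps ≤ 1 / 8 := by
    rcases hp0ps.lt_or_eq with hlt | heq
    · have hmem : ps ∈ closure (Set.Ico p0 ps) := by
        rw [closure_Ico hlt.ne]; exact Set.right_mem_Icc.2 hlt.le
      exact closure_minimal (fun p hp => hlow p hp.1 hp.2) (isClosed_le hfc continuous_const) hmem
    · rw [← heq]; exact hsub p0 le_rfl hmem0.2.2 hp01
  have hps_lt : ps < 1 := by
    refine lt_of_le_of_ne hps1 fun h => ?_
    obtain ⟨K, hK⟩ := D.square_summable hl hinv hL (p := 1) zero_le_one le_rfl hH n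
      (le_trans (show f 1 ≤ 1 / 8 by simpa only [h] using hfps) (by norm_num))
    obtain ⟨N, hN⟩ := exists_nat_gt K
    obtain ⟨F, hF⟩ := Infinite.exists_subset_card_eq (Γ × O) N
    obtain ⟨x⟩ := hc.nonempty
    choose S hS using fun y => T_one hl hc x y
    have hbig : ∀ y ∈ F, tauIn nb (F.biUnion S) 1 x y = 1 := fun y hy =>
      le_antisymm (tauIn_le_one _ zero_le_one le_rfl x y)
        ((hS y).ge.trans (tauIn_mono hl (subset_biUnion_of_mem S hy) zero_le_one le_rfl x y))
    have h2 := hK x (F.biUnion S) F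
    rw [sum_congr rfl fun y hy => by rw [hbig y hy, one_pow], sum_const, hF, nsmul_eq_mul,
      mul_one] at h2
    linarith
  obtain ⟨ε, hε, hεb⟩ := Metric.eventually_nhds_iff.1
    ((hfc.tendsto ps).eventually_le_const (show f ps < 1 / 4 by linarith))
  set p2 : ℝ := ps + min (ε / 2) ((1 - ps) / 2) with hp2
  have hmin : 0 < min (ε / 2) ((1 - ps) / 2) := lt_min (by linarith) (by linarith)
  have hp2ps : ps < p2 := by linarith
  have hp21 : p2 < 1 := by
    have := min_le_right (ε / 2) ((1 - ps) / 2); linarith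
  have hfp2 : f p2 ≤ 1 / 4 := by
    refine hεb ?_
    rw [Real.dist_eq, hp2, add_sub_cancel_left, abs_of_pos hmin]
    have := min_le_left (ε / 2) ((1 - ps) / 2); linarith
  have hps0 : 0 < ps := hp0pos.trans_le hp0ps
  obtain ⟨K, hK⟩ := D.square_summable hl hinv hL (p := p2) (by linarith) hp21.le hH n hfp2
  set q : unitInterval := ⟨(ps + p2) / 2, by constructor <;> linarith⟩ with hq
  have hqv : (q : ℝ) = (ps + p2) / 2 := rfl
  set p3 : ℝ := (ps + (q : ℝ)) / 2 with hp3
  have hnw : ¬ Witness nb p3 := fun hw => by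
    have : p3 ≤ ps := le_csSup hbdd ⟨by linarith, by linarith, hw⟩
    linarith
  simp only [Witness, not_forall, not_exists, not_and, not_lt] at hnw
  obtain ⟨o, ho⟩ := hnw
  have hperc : 0 < perc G q (hasInfinite G) := by
    refine lt_of_lt_of_le (infAt_pos_of_phi hl ((1 : Γ), o) q (p₀ := p3) (by linarith)
      (by linarith) (by linarith) fun p hp T hT =>
        (ho T hT).trans (phiIn_mono (by linarith) hp.1 (hp.2.trans q.2.2) T _)) ?_
    exact measure_mono (by rw [hasInfinite_eq]; exact Set.subset_iUnion (infAt G) _)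
  refine pc_lt_pu G q p2 (by linarith) hperc (perc_one_unique hc) fun q' hq' => ?_
  refine not_unique_of_sq hl hc (quasiTransitive_of_inv hinv) q' K fun x S F => ?_
  refine le_trans (sum_le_sum fun y _ => ?_) (hK x S F)
  exact pow_le_pow_left₀ (tauIn_nonneg S q'.2.1 q'.2.2 x y)
    (tauIn_mono_p S q'.2.1 hq'.le hp21.le x y) 2


end PAct

variable {κ Γ : Type} [Fintype κ] [Nonempty κ] [Group Γ] [DecidableEq Γ]

/-- Graphs with a free cofinite action of such a group. -/
theorem pc_lt_pu_of_pact (D : PAct κ Γ) (hgt : D.General) {c : ℝ} {e : ℕ} (hH : D.Haag c e)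
    {V : Type} (G : SimpleGraph V) (d : ℕ) (hc : G.Connected)
    (hd : ∀ v, (G.neighborSet v).encard = d) (Φ : Γ →* (G ≃g G))
    (free : ∀ g v, Φ g v = v → g = 1) (R : Finset V) (cover : ∀ v, ∃ g, Φ g v ∈ R) :
    pc G < pu G := by
  classical
  obtain ⟨O, hO, hO', G', hinv, ⟨φ⟩⟩ := exists_chart G Φ free R cover
  have hc' : G'.Connected := φ.connected_iff.1 hc
  have hd' : ∀ x, (G'.neighborSet x).encard = d := fun x => by
    obtain ⟨v, rfl⟩ := φ.surjective x
    rw [← hd v]
    exact (ENat.card_congr (φ.mapNeighborSet v)).symm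
  obtain ⟨nb, hl⟩ := exists_labelling G' d hd'
  have : Nonempty O := ⟨(hc'.nonempty.some).2⟩
  rw [pc_congr φ, pu_congr φ]
  exact D.pc_lt_pu_invariant hgt hH hl hinv hc'

/-- Cayley graphs of groups with such a subgroup of finite index. -/
theorem pc_lt_pu_pact_mulCayley (D : PAct κ Γ) (hgt : D.General) {c : ℝ} {e : ℕ}
    (hH : D.Haag c e) {Δ : Type} [Group Δ] (S : Set Δ) (hfin : S.Finite)
    (hgen : Subgroup.closure S = ⊤) (ψ : Γ →* Δ) (hψ : Function.Injective ψ)
    (hidx : ψ.range.FiniteIndex) :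
    pc (SimpleGraph.mulCayley S) < pu (SimpleGraph.mulCayley S) := by
  obtain ⟨hconn, d, hd⟩ := connected_regular_mulCayley S hfin hgen
  obtain ⟨Φ, R, free, cover⟩ := exists_leftAction (SimpleGraph.mulCayley S)
    (fun _ _ _ => SimpleGraph.mulCayley_adj_mul_iff_right) ψ hψ hidx
  exact pc_lt_pu_of_pact D hgt hH _ d hconn hd Φ free R cover

section Overgroup

variable {Λ : Type} [Group Λ] [DecidableEq Λ]

/-- A torsion-free group inside a cocompact lattice in a product of trees. -/
def subPAct (D : TreeAct κ Λ) (ψ : Γ →* Λ) (hψ : Function.Injective ψ)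
    (htf : ∀ g : Γ, IsOfFinOrder g → g = 1) : PAct κ Γ where
  V := D.V
  H := D.H
  tree := D.tree
  φ t := (D.φ t).comp ψ
  o := D.o
  proper R := (D.finite_ball R).preimage (f := ψ) fun _ _ _ _ h => hψ h
  tfree := htf

omit [Nonempty κ] in
theorem subPAct_haag (D : TreeAct κ Λ) (ψ : Γ →* Λ) (hψ : Function.Injective ψ)
    (htf : ∀ g : Γ, IsOfFinOrder g → g = 1) :
    (subPAct D ψ hψ htf).Haag ((D.reps.card : ℝ) ^ 2) (4 * Fintype.card κ) := by
  intro R A B hA f h out
  have hA' : A.image ψ ⊆ D.ball R := fun x hx => by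
    obtain ⟨a, ha, rfl⟩ := mem_image.1 hx
    exact D.mem_ball.2 ((subPAct D ψ hψ htf).mem_ball.1 (hA ha))
  have inv : ∀ g, Function.invFun ψ (ψ g) = g := Function.leftInverse_invFun hψ
  have key := D.haagerup R (A.image ψ) (B.image ψ) hA' (fun x => f (Function.invFun ψ x))
    (fun x => h (Function.invFun ψ x)) (out.image ψ)
  simp only [sum_image hψ.injOn, filter_image, inv] at key
  refine le_trans (le_of_eq (sum_congr rfl fun g _ => ?_)) key
  have hmul : ∀ a, (ψ a)⁻¹ * ψ g = ψ (a⁻¹ * g) := fun a => by rw [map_mul, map_inv]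
  simp only [hmul, inv, hψ.mem_finset_image]

end Overgroup

end Vale.Agent.P165.SG
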