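import Vale.Agent.P165.SG.Setup
import Vale.Agent.P165.TL.Ramsey4
import Vale.Agent.P165.FF.Paths

/-!
# Proper tree actions: a path to the rim of a cylinder yields many flag chains
-/

namespace Vale.Agent.P165.SG

open Finset FF TL

variable {κ Γ : Type} [Fintype κ] [Group Γ] [DecidableEq Γ] (D : PAct κ Γ) {O ι : Type}
  [DecidableEq O] [Fintype O] [Fintype ι] {G : SimpleGraph (Γ × O)} {nb : Γ × O → ι → Γ × O}

namespace PAct

/-- The height of a vertex: the longest coordinate. -/
noncomputable def height (x : Γ × O) : ℕ := univ.sup fun t => D.len t x.1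

omit [Fintype κ] [DecidableEq Γ] in
theorem meet_self (t : κ) (e b : Γ) : D.meet t e b e = 0 := by
  have := (gp_spec (D.tree t) (D.at' e t) (D.at' b t) (D.at' e t)).2.1
  rw [SimpleGraph.dist_self] at this
  exact Nat.le_zero.1 this

/-- A connection to the rim of a cylinder is dominated by the chains with nonincreasing meets. -/
theorem path_count (hl : Labelling G nb) {L : ℕ} (hL1 : 1 ≤ L)
    (hL : ∀ x y : Γ × O, G.Adj x y → ∀ t, D.len t (x.1⁻¹ * y.1) ≤ L) (k : ℕ) :
    ∃ c : ℝ, 0 < c ∧ ∃ N0 : ℕ, ∀ n N, N0 ≤ N → 3 * L * (N + 1) ≤ n →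
      ∀ p, 0 ≤ p → p ≤ 1 → ∀ o, ∀ a ∈ (D.cyl n : Finset (Γ × O)),
        (∃ t, n < D.len t a.1 + L) →
        c * (N : ℝ) ^ k * tauIn nb (D.cyl n) p (1, o) a ≤
          ∑ zs ∈ D.goodChains n k, chainVal nb (D.cyl n) p (1, o) zs a := by
  classical
  obtain ⟨c, hc, N0, hN0⟩ := many_flags κ k
  refine ⟨c, hc, N0, fun n N hN hn p h0 h1 o a ha ⟨t0, ht0⟩ => ?_⟩
  rw [tauIn_eq, ← avg_mul]
  refine le_trans (avg_mono _ h0 h1 (g := fun η =>
    ∑ zs ∈ D.goodChains n k, FF.ind (chainEv (1, o) zs a η)) fun η hη => ?_) ?_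
  swap
  · rw [avg_sum]
    exact sum_le_sum fun zs _ => avg_chain_le _ h0 h1 _ _ _
  have hnn : 0 ≤ ∑ zs ∈ D.goodChains n k, FF.ind (chainEv ((1 : Γ), o) zs a η) :=
    sum_nonneg fun _ _ => FF.ind_nonneg _
  by_cases hcl : cl η (1, o) a
  swap
  · rw [show FF.ind (cl η (1, o) a) = 0 from if_neg hcl, mul_zero]; exact hnn
  rw [show FF.ind (cl η (1, o) a) = 1 from if_pos hcl, mul_one]
  obtain ⟨π, hπ⟩ := SimpleGraph.Reachable.exists_isPath hcl
  set Q : Set (Γ × O) := ↑(D.cyl n : Finset (Γ × O))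
  have hstep : ∀ u v, (SimpleGraph.fromEdgeSet (η : Set (Sym2 (Γ × O)))).Adj u v →
      D.height v ≤ D.height u + L ∧ v ∈ Q := by
    intro u v huv
    have hmem := (inE_iff hl).1 (hη ((SimpleGraph.fromEdgeSet_adj _).1 huv).1)
    refine ⟨Finset.sup_le fun t _ => ?_, hmem.2 v (Sym2.mem_mk_right u v)⟩
    have h2 := hL u v hmem.1 t
    have h3 : D.len t u.1 ≤ D.height u := le_sup (f := fun t => D.len t u.1) (mem_univ t)
    have h4 := D.len_mul_le t u.1 (u.1⁻¹ * v.1)
    rw [mul_inv_cancel_left] at h4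
    omega
  set b : ℕ → ℕ := fun r => 3 * L * (r + 1) with hb
  have hb2 : ∀ r r', r < r' → b r + L ≤ b r' := fun r r' h => by
    have : 3 * L * (r + 2) ≤ 3 * L * (r' + 1) := Nat.mul_le_mul_left _ (by omega)
    simp only [hb]
    nlinarith
  have hx0 : D.height ((1 : Γ), o) = 0 := by simp [height, D.len_one]
  have hxQ : ((1 : Γ), o) ∈ Q := mem_coe.2 (D.mem_cyl.2 fun t => by simp [D.len_one])
  have hay : ∀ r < N, b r ≤ D.height a := fun r hr => by
    have h1' : D.len t0 a.1 ≤ D.height a := le_sup (f := fun t => D.len t a.1) (mem_univ t0)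
    have : 3 * L * (r + 1) + L ≤ 3 * L * (N + 1) := by nlinarith
    simp only [hb]
    omega
  let z : ℕ → Γ × O := fun r => firstUp D.height (b r) π
  have hz : ∀ r < N, z r ∈ Q ∧ b r ≤ D.height (z r) ∧ D.height (z r) < b r + L := fun r hr => by
    obtain ⟨c, w1, w2, -, h2, h3, h4, h5, -⟩ :=
      hit_split D.height Q L hstep (b r) π hxQ (hay r hr) (by rw [hx0]; omega)
    exact ⟨by simp only [z, h5]; exact h4, by simp only [z, h5]; exact h2,
      by simp only [z, h5]; exact h3⟩
  let col : κ → ℕ → ℕ → ℕ → ℕ → Prop := fun t i j l q =>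
    D.meet t (z q).1 (z j).1 (z l).1 ≤ D.meet t (z q).1 (z i).1 (z j).1
  refine (hN0 N hN col fun t i j l q r _ _ _ _ _ => D.meet_five t _ _ _ _ _).trans ?_
  simp only [FF.ind, sum_boole]
  refine Nat.cast_le.2 (card_le_card_of_injOn (fun I => (I.sort (· ≤ ·)).map z) ?_ ?_)
  · intro I hI
    rw [mem_coe, mem_filter, mem_powersetCard] at hI
    obtain ⟨⟨hIN, hIk⟩, hflag⟩ := hI
    set rs := I.sort (· ≤ ·) with hrs
    have hmem : ∀ r ∈ rs, r < N := fun r hr =>
      mem_range.1 (hIN ((Finset.mem_sort _).1 hr))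
    have hsort : rs.Pairwise (· < ·) := (Finset.sortedLT_sort I).pairwise
    have hlen : rs.length = k := by rw [hrs, Finset.length_sort, hIk]
    rw [mem_coe, mem_filter]
    refine ⟨mem_filter.2 ⟨mem_image.2 ⟨fun i : Fin k => z (rs[i.1]'(by omega)), ?_, ?_⟩, ?_⟩, ?_⟩
    · rw [Fintype.mem_piFinset]
      exact fun i => mem_coe.1 (hz _ (hmem _ (List.getElem_mem _))).1
    · refine List.ext_getElem (by simp [hrs, hIk]) fun i h1' h2' => ?_
      simp [hrs]
    · intro t i a' ha' b' hb' d' hd' e' he'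
      simp only [List.getElem?_map, List.getLast?_map, Option.mem_def,
        Option.map_eq_some_iff] at ha' hb' hd' he'
      obtain ⟨ra, hra, rfl⟩ := ha'
      obtain ⟨rb, hrb, rfl⟩ := hb'
      obtain ⟨rd, hrd, rfl⟩ := hd'
      obtain ⟨re, hre, rfl⟩ := he'
      obtain ⟨hd1, hd2⟩ := List.getElem?_eq_some_iff.1 hrd
      by_cases hlt : rd < re
      · exact hflag t i ra hra rb hrb rd hrd re hre hlt
      · have hde : rd = re := by
          have hne : rs ≠ [] := List.ne_nil_of_length_pos (lt_of_le_of_lt (Nat.zero_le _) hd1)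
          rw [List.getLast?_eq_some_getLast hne, Option.some.injEq] at hre
          rw [List.getLast_eq_getElem] at hre
          rcases Nat.lt_or_ge (i + 2) (rs.length - 1) with h | h
          · exact absurd (hd2 ▸ hre ▸ List.pairwise_iff_getElem.1 hsort (i + 2) (rs.length - 1)
              hd1 (by omega) h) hlt
          · rw [← hd2, ← hre]
            exact getElem_congr_idx (show i + 1 + 1 = rs.length - 1 by have := congrArg List.length hrs; omega)
        rw [hde]
        refine le_trans (le_of_eq ?_) (Nat.zero_le _)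
        have hs := D.meet_self t (z re).1 (z rb).1
        exact hs
    · refine inc_chainEv _ _ _ π.edges.toFinset η (fun f hf => ?_)
        (chain_of_walk D.height Q L hstep b hb2 rs hsort π hxQ
          (fun r hr => ⟨by rw [hx0]; omega, hay r (hmem r hr)⟩) hπ.isTrail.edges_nodup)
      have := π.edges_subset_edgeSet (List.mem_toFinset.1 hf)
      rw [SimpleGraph.edgeSet_fromEdgeSet] at this
      exact this.1
  · intro I hI J hJ hIJ
    rw [mem_coe, mem_filter, mem_powersetCard] at hI hJ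
    have hdec : ∀ K : Finset ℕ, K ⊆ range N →
        ((K.sort (· ≤ ·)).map z).map (fun v => D.height v / (3 * L) - 1) = K.sort (· ≤ ·) := by
      intro K hK
      rw [List.map_map]
      conv_rhs => rw [← List.map_id (K.sort (· ≤ ·))]
      refine List.map_congr_left fun r hr => ?_
      obtain ⟨-, h2, h3⟩ := hz r (mem_range.1 (hK ((Finset.mem_sort _).1 hr)))
      have : D.height (z r) / (3 * L) = r + 1 := by
        refine Nat.div_eq_of_lt_le ?_ ?_
        · simp only [hb] at h2; nlinarith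
        · simp only [hb] at h3; nlinarith
      simp [this]
    have h := congrArg (fun l => (l.map fun v => D.height v / (3 * L) - 1).toFinset) hIJ
    simp only [hdec I hI.1.1, hdec J hJ.1.1, Finset.sort_toFinset] at h
    exact h

end PAct

end Vale.Agent.P165.SG
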