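import Vale.Agent.P165.SG.Main
import Vale.Agent.P165.TL.Main

/-!
# Groups acting on finitely many trees: statements in plain data

The hypothesis on each tree is two elements whose forward and backward orbits escape at linear speed
in four different directions.
-/

namespace Vale.Agent.P165.SG

open Finset TL

section General

variable {Γ V : Type} [Group Γ] {H : SimpleGraph V}

/-- An element whose powers escape is loxodromic. -/
theorem lox_of_escape (hT : H.IsTree) (f : Γ →* (H ≃g H)) (u : V) {g : Γ}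
    (hg : ∀ n : ℕ, n ≤ H.dist u (f (g ^ n) u)) : Lox f g := by
  by_contra h
  obtain ⟨p, hp⟩ := exists_fixed hT f u h
  have hn : ∀ n : ℕ, f ((g * g) ^ n) p = p := by
    intro n
    induction n with
    | zero => rw [pow_zero, f_one]
    | succ n ih => rw [pow_succ, f_mul, hp, ih]
  set N := H.dist p u with hN
  have h1 := dsp_change hT f u p ((g * g) ^ (N + 1))
  have h2 : dsp f p ((g * g) ^ (N + 1)) = 0 := by rw [dsp, hn, SimpleGraph.dist_self]
  have h3 := hg (2 * (N + 1))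
  have h4 := dsp_change hT f p u ((g * g) ^ (N + 1))
  rw [pow_mul, pow_two] at h3
  simp only [dsp] at *
  omega

/-- Orbits with bounded common parts have different ends. -/
theorem not_same_of_bound (hT : H.IsTree) (f : Γ →* (H ≃g H)) (u : V) {g h : Γ} {K : ℕ}
    (hb : ∀ n k : ℕ, H.dist u (f (g ^ n) u) + H.dist u (f (h ^ k) u) ≤
      H.dist (f (g ^ n) u) (f (h ^ k) u) + K) : ¬Same f u g h := fun s => by
  obtain ⟨N, hN⟩ := s (K + 1)
  have h1 := hN N le_rfl N le_rfl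
  have h2 := hb N N
  have h3 := (gp_spec hT u (f (g ^ N) u) (f (h ^ N) u)).2.2.2.2
  simp only [sh] at h1
  omega

end General

variable {κ Γ : Type} [Group Γ]

/-- Two elements escaping in four directions of every tree give the hypothesis on the action. -/
theorem general_of_escape (D : PAct κ Γ) (h : ∀ t, ∃ g h : Γ, ∃ K : ℕ,
    (∀ n : ℕ, n ≤ (D.H t).dist (D.o t) (D.φ t (g ^ n) (D.o t)) ∧
      n ≤ (D.H t).dist (D.o t) (D.φ t (h ^ n) (D.o t))) ∧
    ∀ a ∈ [(g, h), (g, h⁻¹), (g⁻¹, h), (g⁻¹, h⁻¹)], ∀ n k : ℕ,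
      (D.H t).dist (D.o t) (D.φ t (a.1 ^ n) (D.o t)) +
          (D.H t).dist (D.o t) (D.φ t (a.2 ^ k) (D.o t)) ≤
        (D.H t).dist (D.φ t (a.1 ^ n) (D.o t)) (D.φ t (a.2 ^ k) (D.o t)) + K) :
    D.General := fun t => by
  obtain ⟨g, k, K, he, hb⟩ := h t
  exact ⟨g, k, lox_of_escape (D.tree t) _ _ fun n => (he n).1,
    lox_of_escape (D.tree t) _ _ fun n => (he n).2,
    not_same_of_bound (D.tree t) _ _ (hb (g, k) (by simp)),
    not_same_of_bound (D.tree t) _ _ (hb (g, k⁻¹) (by simp)),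
    not_same_of_bound (D.tree t) _ _ (hb (g⁻¹, k) (by simp)),
    not_same_of_bound (D.tree t) _ _ (hb (g⁻¹, k⁻¹) (by simp))⟩

/-- The criterion in plain data. -/
theorem pc_lt_pu_plain (m : ℕ) (hm : 1 ≤ m) (W : Fin m → Type) (H : ∀ t, SimpleGraph (W t))
    (hT : ∀ t, (H t).IsTree) (o : ∀ t, W t) (Γ : Type) [Group Γ] [DecidableEq Γ]
    (act : ∀ t, Γ →* (H t ≃g H t)) (htf : ∀ g : Γ, IsOfFinOrder g → g = 1)
    (hprop : ∀ R : ℕ, {g : Γ | ∀ t, (H t).dist (o t) (act t g (o t)) ≤ R}.Finite)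
    (hesc : ∀ t, ∃ g h : Γ, ∃ K : ℕ,
      (∀ n : ℕ, n ≤ (H t).dist (o t) (act t (g ^ n) (o t)) ∧
        n ≤ (H t).dist (o t) (act t (h ^ n) (o t))) ∧
      ∀ a ∈ [(g, h), (g, h⁻¹), (g⁻¹, h), (g⁻¹, h⁻¹)], ∀ n k : ℕ,
        (H t).dist (o t) (act t (a.1 ^ n) (o t)) + (H t).dist (o t) (act t (a.2 ^ k) (o t)) ≤
          (H t).dist (act t (a.1 ^ n) (o t)) (act t (a.2 ^ k) (o t)) + K)
    (c : ℝ) (e : ℕ)
    (hRD : ∀ (R : ℕ) (A B : Finset Γ), (∀ a ∈ A, ∀ t, (H t).dist (o t) (act t a (o t)) ≤ R) →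
      ∀ (f h : Γ → ℝ) (out : Finset Γ),
        ∑ g ∈ out, (∑ a ∈ A.filter (fun a => a⁻¹ * g ∈ B), f a * h (a⁻¹ * g)) ^ 2 ≤
          c * ((R : ℝ) + 1) ^ e * (∑ a ∈ A, f a ^ 2) * ∑ b ∈ B, h b ^ 2) :
    (∀ (V : Type) (G : SimpleGraph V) (d : ℕ), G.Connected →
      (∀ v, (G.neighborSet v).encard = d) → ∀ (Φ : Γ →* (G ≃g G)),
        (∀ g v, Φ g v = v → g = 1) → ∀ R : Finset V, (∀ v, ∃ g, Φ g v ∈ R) → pc G < pu G) ∧
    ∀ (Δ : Type) [Group Δ] (s : Set Δ), s.Finite → Subgroup.closure s = ⊤ →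
      ∀ ψ : Γ →* Δ, Function.Injective ψ → ψ.range.FiniteIndex →
        pc (SimpleGraph.mulCayley s) < pu (SimpleGraph.mulCayley s) := by
  let D : PAct (Fin m) Γ :=
    { V := W, H := H, tree := hT, φ := act, o := o, proper := hprop, tfree := htf }
  have : Nonempty (Fin m) := ⟨⟨0, hm⟩⟩
  have hgt : D.General := general_of_escape D hesc
  have hH : D.Haag c e := fun R A B hA f h out =>
    hRD R A B (fun a ha => D.mem_ball.1 (hA ha)) f h out
  exact ⟨fun V G d hc hd Φ free R cover => pc_lt_pu_of_pact D hgt hH G d hc hd Φ free R cover,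
    fun Δ _ s hs hgen ψ hψ hidx => pc_lt_pu_pact_mulCayley D hgt hH s hs hgen ψ hψ hidx⟩

/-- Torsion-free subgroups of groups acting freely and cofinitely on a product of trees. -/
theorem pc_lt_pu_lattice_subgroup (m : ℕ) (hm : 1 ≤ m) (W : Fin m → Type)
    (H : ∀ t, SimpleGraph (W t)) (hT : ∀ t, (H t).IsTree)
    (hfin : ∀ t x, ((H t).neighborSet x).Finite) (hdeg : ∀ t x, 3 ≤ ((H t).neighborSet x).ncard)
    (Λ : Type) [Group Λ] (act : ∀ t, Λ →* (H t ≃g H t))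
    (hfree : ∀ (g : Λ) (x : ∀ t, W t), (∀ t, act t g (x t) = x t) → g = 1)
    (hcof : ∃ R : Finset (∀ t, W t), ∀ x : ∀ t, W t, ∃ g, ∃ r ∈ R, ∀ t, act t g (r t) = x t)
    (Γ : Type) [Group Γ] (ι : Γ →* Λ) (hι : Function.Injective ι)
    (htf : ∀ g : Γ, IsOfFinOrder g → g = 1) (o : ∀ t, W t)
    (hesc : ∀ t, ∃ g h : Γ, ∃ K : ℕ,
      (∀ n : ℕ, n ≤ (H t).dist (o t) (act t (ι (g ^ n)) (o t)) ∧
        n ≤ (H t).dist (o t) (act t (ι (h ^ n)) (o t))) ∧
      ∀ a ∈ [(g, h), (g, h⁻¹), (g⁻¹, h), (g⁻¹, h⁻¹)], ∀ n k : ℕ,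
        (H t).dist (o t) (act t (ι (a.1 ^ n)) (o t)) +
            (H t).dist (o t) (act t (ι (a.2 ^ k)) (o t)) ≤
          (H t).dist (act t (ι (a.1 ^ n)) (o t)) (act t (ι (a.2 ^ k)) (o t)) + K) :
    (∀ (V : Type) (G : SimpleGraph V) (d : ℕ), G.Connected →
      (∀ v, (G.neighborSet v).encard = d) → ∀ (Φ : Γ →* (G ≃g G)),
        (∀ g v, Φ g v = v → g = 1) → ∀ R : Finset V, (∀ v, ∃ g, Φ g v ∈ R) → pc G < pu G) ∧
    ∀ (Δ : Type) [Group Δ] (s : Set Δ), s.Finite → Subgroup.closure s = ⊤ →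
      ∀ ψ : Γ →* Δ, Function.Injective ψ → ψ.range.FiniteIndex →
        pc (SimpleGraph.mulCayley s) < pu (SimpleGraph.mulCayley s) := by
  classical
  obtain ⟨reps, hcov⟩ := hcof
  let T : TreeAct (Fin m) Λ :=
    { V := W, H := H, tree := hT, nbhd := hfin, deg := hdeg, φ := act, free := hfree
      o := o, reps := reps, cover := hcov }
  have : Nonempty (Fin m) := ⟨⟨0, hm⟩⟩
  let D := subPAct T ι hι htf
  have hgt : D.General := general_of_escape D hesc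
  have hH := subPAct_haag T ι hι htf
  exact ⟨fun V G d hc hd Φ free R cover => pc_lt_pu_of_pact D hgt hH G d hc hd Φ free R cover,
    fun Δ _ s hs hgen ψ hψ hidx => pc_lt_pu_pact_mulCayley D hgt hH s hs hgen ψ hψ hidx⟩

end Vale.Agent.P165.SG
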