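import Vale.Agent.P165.SG.Lox
import Vale.Agent.P165.FF.Sub

/-!
# Torsion-free groups acting properly on finitely many trees: definitions
-/

namespace Vale.Agent.P165.SG

open Finset TL

/-- A torsion-free group acting on finitely many trees, such that only finitely many elements move
the base vertices a bounded amount. The trees need not be locally finite. -/
structure PAct (κ Γ : Type) [Group Γ] where
  /-- The vertices of the trees. -/
  V : κ → Type
  /-- The trees. -/
  H : ∀ t, SimpleGraph (V t)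
  tree : ∀ t, (H t).IsTree
  /-- The actions. -/
  φ : ∀ t, Γ →* (H t ≃g H t)
  /-- The base vertices. -/
  o : ∀ t, V t
  proper : ∀ R : ℕ, {g : Γ | ∀ t, (H t).dist (o t) (φ t g (o t)) ≤ R}.Finite
  tfree : ∀ g : Γ, IsOfFinOrder g → g = 1

variable {κ Γ : Type} [Group Γ] (D : PAct κ Γ)

namespace PAct

/-- The image of a vertex. -/
def act (t : κ) (g : Γ) (x : D.V t) : D.V t := D.φ t g x

/-- The position of a group element. -/
def at' (g : Γ) (t : κ) : D.V t := D.act t g (D.o t)

/-- The displacement of the base vertex in one coordinate. -/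
noncomputable def len (t : κ) (g : Γ) : ℕ := (D.H t).dist (D.o t) (D.at' g t)

/-- The vertex at distance `i` on the geodesic from the base vertex to a position. -/
noncomputable def geo (g : Γ) (t : κ) (i : ℕ) : D.V t := pt (D.H t) (D.o t) (D.at' g t) i

/-- The common part of the geodesics from the position of `d` to those of `a` and `b`. -/
noncomputable def meet (t : κ) (d a b : Γ) : ℕ :=
  gp (D.H t) (D.at' d t) (D.at' a t) (D.at' b t)

theorem len_eq_dsp (t : κ) (g : Γ) : D.len t g = dsp (D.φ t) (D.o t) g := rfl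

theorem act_mul (t : κ) (g h : Γ) (x : D.V t) : D.act t (g * h) x = D.act t g (D.act t h x) :=
  f_mul (D.φ t) g h x

theorem act_one (t : κ) (x : D.V t) : D.act t 1 x = x := f_one (D.φ t) x

theorem at_mul (g h : Γ) (t : κ) : D.at' (g * h) t = D.act t g (D.at' h t) := D.act_mul t g h _

theorem at_one (t : κ) : D.at' 1 t = D.o t := D.act_one t _

theorem act_inv_act (t : κ) (g : Γ) (x : D.V t) : D.act t g⁻¹ (D.act t g x) = x := by
  rw [← act_mul, inv_mul_cancel, act_one]

theorem dist_act (t : κ) (g : Γ) (x y : D.V t) :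
    (D.H t).dist (D.act t g x) (D.act t g y) = (D.H t).dist x y :=
  dist_f (D.tree t) (D.φ t) g x y

theorem pt_act (t : κ) (g : Γ) (x y : D.V t) (i : ℕ) :
    pt (D.H t) (D.act t g x) (D.act t g y) i = D.act t g (pt (D.H t) x y i) :=
  pt_map (D.tree t) (D.tree t) (D.φ t g) x y i

theorem dist_at (t : κ) (g h : Γ) :
    (D.H t).dist (D.at' g t) (D.at' h t) = D.len t (g⁻¹ * h) :=
  dist_dsp (D.tree t) (D.φ t) (D.o t) g h

theorem len_one (t : κ) : D.len t 1 = 0 := dsp_one (D.φ t) (D.o t)

theorem len_inv (t : κ) (g : Γ) : D.len t g⁻¹ = D.len t g := dsp_inv (D.tree t) (D.φ t) (D.o t) g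

theorem len_mul_le (t : κ) (g h : Γ) : D.len t (g * h) ≤ D.len t g + D.len t h :=
  dsp_mul_le (D.tree t) (D.φ t) (D.o t) g h

theorem meet_spec (t : κ) (e a b : Γ) :
    D.len t (a⁻¹ * b) + 2 * D.meet t e a b = D.len t (e⁻¹ * a) + D.len t (e⁻¹ * b) := by
  rw [← D.dist_at, ← D.dist_at, ← D.dist_at]
  exact (gp_spec (D.tree t) _ _ _).2.2.2.2

theorem finite_ball (R : ℕ) : {g : Γ | ∀ t, D.len t g ≤ R}.Finite := D.proper R

/-- Among five points in order, one quadruple has nonincreasing meets seen from its last point. -/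
theorem meet_five (t : κ) (a b c d e : Γ) :
    D.meet t d b c ≤ D.meet t d a b ∨ D.meet t e c d ≤ D.meet t e a c ∨
      D.meet t e c d ≤ D.meet t e b c := by
  simp only [meet]
  generalize D.at' a t = a, D.at' b t = b, D.at' c t = c, D.at' d t = d, D.at' e t = e
  have hT := D.tree t
  have g := fun u v w => (gp_spec hT u v w).2.2.2.2
  have := gp_min hT d a c b
  have := gp_min hT d a b c
  have := gp_min hT e a c d
  have := gp_min hT e a d c
  have := gp_min hT e b c d
  have := gp_min hT e b d c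
  have := g d a b; have := g d b c; have := g d a c
  have := g e a c; have := g e c d; have := g e a d
  have := g e b c; have := g e b d
  have := gp_comm hT d c b; have := gp_comm hT e d c
  simp only [SimpleGraph.dist_comm (u := d) (v := a), SimpleGraph.dist_comm (u := d) (v := b),
    SimpleGraph.dist_comm (u := d) (v := c), SimpleGraph.dist_comm (u := e) (v := a),
    SimpleGraph.dist_comm (u := e) (v := b), SimpleGraph.dist_comm (u := e) (v := c),
    SimpleGraph.dist_comm (u := e) (v := d)] at *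
  omega

/-- An element fixing a vertex in every tree is trivial. -/
theorem eq_one_of_fix [Finite κ] (g : Γ) (x : ∀ t, D.V t) (h : ∀ t, D.act t g (x t) = x t) :
    g = 1 := by
  have := Fintype.ofFinite κ
  refine D.tfree g (finite_powers.1 ((D.finite_ball
    (2 * ∑ t, (D.H t).dist (x t) (D.o t))).subset ?_))
  rintro _ ⟨n, rfl⟩ t
  have hn : D.act t (g ^ n) (x t) = x t := by
    induction n with
    | zero => rw [pow_zero, act_one]
    | succ n ih => rw [pow_succ, act_mul, h t, ih]
  have h1 := dsp_change (D.tree t) (D.φ t) (x t) (D.o t) (g ^ n)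
  have h2 : dsp (D.φ t) (x t) (g ^ n) = 0 := by
    show (D.H t).dist (x t) (D.act t (g ^ n) (x t)) = 0
    rw [hn, SimpleGraph.dist_self]
  have h3 := single_le_sum (f := fun t => (D.H t).dist (x t) (D.o t)) (fun _ _ => Nat.zero_le _)
    (mem_univ t)
  beta_reduce at h3 ⊢
  rw [len_eq_dsp]
  omega

/-- A tuple of vertices is moved injectively. -/
theorem act_injective [Finite κ] {g h : Γ} (x : ∀ t, D.V t)
    (e : ∀ t, D.act t g (x t) = D.act t h (x t)) : g = h :=
  inv_mul_eq_one.1 (D.eq_one_of_fix (g⁻¹ * h) x fun t => by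
    rw [act_mul, ← e t, act_inv_act])

/-- Every tree has two loxodromics with four distinct ends. -/
def General : Prop := ∀ t, GenType (D.φ t) (D.o t)

/-- Finitely many markers with long symmetric arms, avoiding three given directions. -/
def IsMarkers (C : Finset Γ) (D₀ P : ℕ) : Prop :=
  1 ≤ D₀ ∧ 400 * D₀ ≤ P ∧ ∀ a a' b : ∀ t, D.V t, ∃ c ∈ C, ∀ t,
    Lox (D.φ t) c ∧ P ≤ gp (D.H t) (D.o t) (D.at' c t) (D.at' c⁻¹ t) ∧ 2 * P + 1 ≤ D.len t c ∧
      gp (D.H t) (D.o t) (D.at' c t) (a t) ≤ D₀ ∧ gp (D.H t) (D.o t) (D.at' c t) (a' t) ≤ D₀ ∧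
        gp (D.H t) (D.o t) (D.at' c⁻¹ t) (b t) ≤ D₀

/-- The elements moving the base vertex at most `R` in every coordinate. -/
noncomputable def ball (R : ℕ) : Finset Γ := (D.finite_ball R).toFinset

theorem mem_ball {R : ℕ} {g : Γ} : g ∈ D.ball R ↔ ∀ t, D.len t g ≤ R :=
  Set.Finite.mem_toFinset _

theorem ball_mono {R R' : ℕ} (h : R ≤ R') : D.ball R ⊆ D.ball R' := fun _ hg =>
  D.mem_ball.2 fun t => (D.mem_ball.1 hg t).trans h

variable {O ι : Type} [DecidableEq Γ] [DecidableEq O] [Fintype O] [Fintype ι]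

/-- Haagerup's inequality on the balls, with polynomial factor `c * (R + 1) ^ e`. -/
def Haag (c : ℝ) (e : ℕ) : Prop :=
  ∀ (R : ℕ) (A B : Finset Γ), A ⊆ D.ball R → ∀ (f h : Γ → ℝ) (out : Finset Γ),
    ∑ g ∈ out, (∑ a ∈ A.filter (fun a => a⁻¹ * g ∈ B), f a * h (a⁻¹ * g)) ^ 2 ≤
      c * ((R : ℝ) + 1) ^ e * (∑ a ∈ A, f a ^ 2) * ∑ b ∈ B, h b ^ 2

/-- The vertices over `ball n`. -/
noncomputable def cyl (n : ℕ) : Finset (Γ × O) := D.ball n ×ˢ univ

omit [DecidableEq Γ] [DecidableEq O] in
theorem mem_cyl {n : ℕ} {x : Γ × O} :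
    x ∈ (D.cyl n : Finset (Γ × O)) ↔ ∀ t, D.len t x.1 ≤ n := by
  simp [cyl, mem_ball]

/-- The open exits from a cylinder, summed over base vertices, by the group part of their ends. -/
noncomputable def kernelB (nb : Γ × O → ι → Γ × O) (n : ℕ) (p : ℝ) (g : Γ) : ℝ :=
  p * ∑ o : O, ∑ a ∈ (D.cyl n : Finset (Γ × O)), ∑ j : ι,
    if nb a j ∉ (D.cyl n : Finset (Γ × O)) ∧ (nb a j).1 = g then
      tauIn nb (D.cyl n) p (1, o) a else 0

/-- Seen from the last point, the meets of consecutive points do not increase. -/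
def Flag (zs : List (Γ × O)) : Prop :=
  ∀ (t : κ) (i : ℕ), ∀ a ∈ zs[i]?, ∀ b ∈ zs[i + 1]?, ∀ c ∈ zs[i + 2]?, ∀ e ∈ zs.getLast?,
    D.meet t e.1 b.1 c.1 ≤ D.meet t e.1 a.1 b.1

open Classical in
/-- The lists of `k` points in a cylinder with nonincreasing meets. -/
noncomputable def goodChains (n k : ℕ) : Finset (List (Γ × O)) :=
  ((Fintype.piFinset fun _ : Fin k => (D.cyl n : Finset (Γ × O))).image List.ofFn).filter D.Flag

end PAct

end Vale.Agent.P165.SG
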